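import Vale.Agent.P061.Apex.Euler

/-!
P061 surfaces plus apices: a long chain of parallel alive edges through good classes.
-/

open Finset

namespace Vale.Agent.P061.Apex

variable {V E Φ : Type} [Fintype V] [Fintype E] [DecidableEq V] [DecidableEq E] [Fintype Φ]
  {ends : E → V × V} {A : Finset V} {g D β θ : ℕ} {s : St V E}
  {fc : Faces ends (awayEdges ends ↑A) Φ g}

variable (s fc) in
open Classical in
/-- The other alive edge end at a good class. -/
noncomputable def mate (i : E × Bool) : E × Bool :=
  if h : i.1 ∈ s.alive ends A ∧ Good s fc (icls s fc i) ∧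
      ∃ i' ∈ incs s fc (icls s fc i), i' ≠ i then h.2.2.choose else i

/-- The other end of an edge. -/
def flipEnd (i : E × Bool) : E × Bool := (i.1, !i.2)

theorem mate_spec {i : E × Bool} (hi : i.1 ∈ s.alive ends A) (hg : Good s fc (icls s fc i)) :
    mate s fc i ∈ incs s fc (icls s fc i) ∧ mate s fc i ≠ i := by
  classical
  have hex : ∃ i' ∈ incs s fc (icls s fc i), i' ≠ i :=
    Finset.exists_mem_ne (by rw [hg.2.1]; omega) i
  rw [mate, dif_pos ⟨hi, hg, hex⟩]
  exact (⟨hi, hg, hex⟩ :
    i.1 ∈ s.alive ends A ∧ Good s fc (icls s fc i) ∧ _).2.2.choose_spec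

theorem mate_cases {i : E × Bool} (hi : i.1 ∈ s.alive ends A) (hg : Good s fc (icls s fc i))
    {i' : E × Bool} (hi' : i' ∈ incs s fc (icls s fc i)) : i' = i ∨ i' = mate s fc i := by
  classical
  obtain ⟨h1, h2⟩ := mate_spec hi hg
  have h3 : incs s fc (icls s fc i) = {i, mate s fc i} := (Finset.eq_of_subset_of_card_le
    (by intro x hx; simp only [Finset.mem_insert, Finset.mem_singleton] at hx
        rcases hx with rfl | rfl
        exacts [mem_incs.2 ⟨hi, rfl⟩, h1])
    (by rw [hg.2.1, Finset.card_pair h2.symm])).symm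
  simpa [h3] using hi'

theorem mate_mate (i : E × Bool) : mate s fc (mate s fc i) = i := by
  classical
  by_cases h : i.1 ∈ s.alive ends A ∧ Good s fc (icls s fc i)
  · obtain ⟨h1, h2⟩ := mate_spec h.1 h.2
    obtain ⟨ha, hc⟩ := mem_incs.1 h1
    obtain ⟨h3, h4⟩ := mate_spec ha (hc.symm ▸ h.2)
    rw [hc] at h3
    rcases mate_cases h.1 h.2 h3 with h5 | h5
    exacts [h5, absurd h5 h4]
  · have : mate s fc i = i := dif_neg fun h' => h ⟨h'.1, h'.2.1⟩
    rw [this, this]

theorem flipEnd_flipEnd (i : E × Bool) : flipEnd (flipEnd i) = i := by simp [flipEnd]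

variable (s fc) in
/-- One step along a thread. -/
noncomputable def stepEnd : Equiv.Perm (E × Bool) :=
  (Function.Involutive.toPerm (mate s fc) mate_mate).trans
    (Function.Involutive.toPerm flipEnd flipEnd_flipEnd)

theorem stepEnd_apply (i : E × Bool) : stepEnd s fc i = flipEnd (mate s fc i) := rfl

/-- A chain of `R` parallel alive edges through different good classes. -/
structure Thread (s : St V E) (fc : Faces ends (awayEdges ends ↑A) Φ g) (R : ℕ) where
  /-- the edge ends along the chain -/
  u : ℕ → E × Bool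
  alive : ∀ j ≤ R, (u j).1 ∈ s.alive ends A
  good : ∀ j ≤ R, Good s fc (icls s fc (u j))
  step : ∀ j, u (j + 1) = flipEnd (mate s fc (u j))
  distinct : ∀ a b, a < b → b ≤ R → icls s fc (u a) ≠ icls s fc (u b)

theorem exists_thread (h : Inv ends A fc.φ D β θ s) {R : ℕ}
    (hm : (R + 1) * (6 * (s.count A + g)) < 2 * (s.alive ends A).card) :
    Nonempty (Thread s fc R) := by
  classical
  set I := ias (ends := ends) (A := A) s with hI
  set S := I.filter fun i => ¬ Good s fc (icls s fc i) with hS
  set Bad := (Finset.range (R + 1)).biUnion fun j => S.image ⇑(stepEnd s fc ^ j).symm with hB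
  have hlt : Bad.card < I.card := by
    refine lt_of_le_of_lt (Finset.card_biUnion_le.trans ?_) (lt_of_lt_of_eq hm ?_)
    · refine (Finset.sum_le_card_nsmul _ _ _ fun j _ =>
        Finset.card_image_le.trans (special_le h)).trans ?_
      simp
    · rw [hI, ias, Finset.card_product, Finset.card_univ, Fintype.card_bool, Nat.mul_comm]
  obtain ⟨i₀, hi₀, hnot⟩ := Finset.exists_mem_notMem_of_card_lt_card hlt
  set u : ℕ → E × Bool := fun j => (stepEnd s fc ^ j) i₀ with hu
  have hstep : ∀ j, u (j + 1) = flipEnd (mate s fc (u j)) := fun j => by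
    simp only [hu, pow_succ', Equiv.Perm.mul_apply, stepEnd_apply]
  have halive : ∀ j, (u j).1 ∈ s.alive ends A := by
    intro j
    induction j with
    | zero => simpa [hu, hI, mem_ias] using hi₀
    | succ j ih =>
      rw [hstep]
      by_cases hg : Good s fc (icls s fc (u j))
      · exact (mem_incs.1 (mate_spec ih hg).1).1
      · rwa [show mate s fc (u j) = u j from dif_neg fun h' => hg h'.2.1]
  have hgood : ∀ j ≤ R, Good s fc (icls s fc (u j)) := by
    intro j hj
    by_contra hg
    refine hnot (Finset.mem_biUnion.2 ⟨j, Finset.mem_range.2 (by omega), ?_⟩)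
    exact Finset.mem_image.2 ⟨u j,
      Finset.mem_filter.2 ⟨mem_ias.2 (halive j), hg⟩, (Equiv.symm_apply_apply _ _)⟩
  have hmate : ∀ j, mate s fc (u j) = flipEnd (u (j + 1)) := fun j => by
    rw [hstep, flipEnd_flipEnd]
  have hmcls : ∀ j ≤ R, icls s fc (flipEnd (u (j + 1))) = icls s fc (u j) := fun j hj => by
    rw [← hmate]; exact (mem_incs.1 (mate_spec (halive j) (hgood j hj)).1).2
  refine ⟨⟨u, fun j _ => halive j, hgood, hstep, ?_⟩⟩
  suffices key : ∀ d a, a + d ≤ R → 0 < d → icls s fc (u a) ≠ icls s fc (u (a + d)) by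
    intro a b hab hb
    obtain ⟨d, rfl⟩ := Nat.exists_eq_add_of_le hab.le
    exact key d a hb (by omega)
  intro d
  induction d using Nat.strong_induction_on with
  | _ d ih =>
  intro a hR hd heq
  rcases mate_cases (halive a) (hgood a (by omega))
      (mem_incs.2 ⟨halive (a + d), heq.symm⟩) with h1 | h1
  · have hper : u d = u 0 := by
      have : (stepEnd s fc ^ a) ((stepEnd s fc ^ d) i₀) = (stepEnd s fc ^ a) i₀ := by
        rw [← Equiv.Perm.mul_apply, ← pow_add]; exact h1
      simpa [hu] using (stepEnd s fc ^ a).injective this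
    set P : Set (Cls s fc) := {c | ∃ j < d, icls s fc (u j) = c}
    have hP : ∀ x y, CAdj s fc x y → (x ∈ P ↔ y ∈ P) := by
      intro x y ⟨e, he, hx, hy⟩
      have key : ∀ i : E × Bool, i.1 ∈ s.alive ends A → icls s fc i ∈ P →
          icls s fc (flipEnd i) ∈ P := by
        rintro i hi ⟨j, hj, hc⟩
        rcases mate_cases (halive j) (hgood j (by omega))
            (mem_incs.2 ⟨hi, hc.symm⟩) with rfl | rfl
        · rcases Nat.eq_zero_or_pos j with rfl | hj0
          · refine ⟨d - 1, by omega, ?_⟩
            rw [← hper, ← hmcls (d - 1) (by omega), Nat.sub_add_cancel (by omega)]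
          · refine ⟨j - 1, by omega, ?_⟩
            rw [← hmcls (j - 1) (by omega), Nat.sub_add_cancel hj0]
        · rw [hmate, flipEnd_flipEnd]
          by_cases hjd : j + 1 < d
          · exact ⟨j + 1, hjd, rfl⟩
          · exact ⟨0, hd, by rw [show j + 1 = d by omega, hper]⟩
      subst hx hy
      exact ⟨fun hp => key (e, true) he hp, fun hp => key (e, false) he hp⟩
    obtain ⟨j, hj, hrep⟩ := rep_mem P hP (⟨0, hd, rfl⟩ : icls s fc (u 0) ∈ P)
    have hrr : rep s fc (icls s fc (u j)) = icls s fc (u j) := by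
      rw [hrep]; unfold rep; rw [Quotient.out_eq]
    exact (hgood j (by omega)).1 hrr
  · obtain ⟨-, hne⟩ := mate_spec (halive a) (hgood a (by omega))
    rw [hmate] at h1
    rcases lt_trichotomy d 2 with hd2 | hd2 | hd2
    · obtain rfl : d = 1 := by omega
      exact Bool.not_ne_self _ (congrArg Prod.snd h1).symm
    · subst hd2
      have h2 : u (a + 1) = flipEnd (u (a + 1 + 1)) := by rw [h1, flipEnd_flipEnd]
      have h3 := mate_spec (halive (a + 1)) (hgood (a + 1) (by omega))
      exact h3.2 (by rw [hmate]; exact h2.symm)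
    · refine ih (d - 2) (by omega) (a + 1) (by omega) (by omega) ?_
      have h2 : flipEnd (u (a + d)) = u (a + 1) := by rw [h1, flipEnd_flipEnd]
      have h3 := hmcls (a + d - 1) (by omega)
      rw [Nat.sub_add_cancel (by omega), h2] at h3
      rw [h3, show a + 1 + (d - 2) = a + d - 1 by omega]

namespace Thread

variable {R : ℕ} (t : Thread s fc R)

/-- The edge between the classes `j` and `j + 1`. -/
def edge (j : ℕ) : E := (t.u (j + 1)).1

theorem mate_u (j : ℕ) : mate s fc (t.u j) = flipEnd (t.u (j + 1)) := by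
  rw [t.step, flipEnd_flipEnd]

theorem cls_flip {j : ℕ} (hj : j ≤ R) :
    icls s fc (flipEnd (t.u (j + 1))) = icls s fc (t.u j) := by
  rw [← t.mate_u]; exact (mem_incs.1 (mate_spec (t.alive j hj) (t.good j hj)).1).2

/-- An alive edge end in a class of the chain is one of two. -/
theorem end_cases {j : ℕ} (hj : j ≤ R) {i : E × Bool} (hi : i.1 ∈ s.alive ends A)
    (hc : icls s fc i = icls s fc (t.u j)) : i = t.u j ∨ i = flipEnd (t.u (j + 1)) := by
  rw [← t.mate_u]; exact mate_cases (t.alive j hj) (t.good j hj) (mem_incs.2 ⟨hi, hc⟩)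

theorem cls_inj {a b : ℕ} (ha : a ≤ R) (hb : b ≤ R)
    (h : icls s fc (t.u a) = icls s fc (t.u b)) : a = b := by
  rcases lt_trichotomy a b with h' | h' | h'
  exacts [absurd h (t.distinct a b h' hb), h', absurd h.symm (t.distinct b a h' ha)]

theorem edge_alive {j : ℕ} (hj : j < R) : t.edge j ∈ s.alive ends A := t.alive (j + 1) hj

theorem edge_inj {a b : ℕ} (ha : a < R) (hb : b < R) (h : t.edge a = t.edge b) : a = b := by
  by_cases hbo : (t.u (a + 1)).2 = (t.u (b + 1)).2
  · have := t.cls_inj (a := a + 1) (b := b + 1) ha hb (congrArg _ (Prod.ext h hbo))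
    omega
  · have he : flipEnd (t.u (a + 1)) = t.u (b + 1) := by
      refine Prod.ext h ?_
      revert hbo; simp [flipEnd]; cases (t.u (a + 1)).2 <;> cases (t.u (b + 1)).2 <;> simp
    have he' : flipEnd (t.u (b + 1)) = t.u (a + 1) := by rw [← he, flipEnd_flipEnd]
    have h1 := t.cls_flip (j := a) ha.le
    have h2 := t.cls_flip (j := b) hb.le
    rw [he] at h1
    rw [he'] at h2
    have := t.cls_inj (a := b + 1) (b := a) hb ha.le h1
    have := t.cls_inj (a := a + 1) (b := b) ha hb.le h2
    omega

/-- Consecutive chain edges are parallel between clusters. -/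
theorem parallel_succ (h : Inv ends A fc.φ D β θ s) {j : ℕ} (hj : 0 < j) (hjR : j < R) (U : V) :
    (s.cl (ends (t.edge (j - 1))).1 = U ∨ s.cl (ends (t.edge (j - 1))).2 = U) ↔
      (s.cl (ends (t.edge j)).1 = U ∨ s.cl (ends (t.edge j)).2 = U) := by
  classical
  obtain ⟨h1, h2⟩ := mate_spec (t.alive j hjR.le) (t.good j hjR.le)
  have h3 : incs s fc (icls s fc (t.u j)) = {t.u j, mate s fc (t.u j)} := by
    refine Finset.Subset.antisymm (fun x hx => ?_) ?_
    · rcases mate_cases (t.alive j hjR.le) (t.good j hjR.le) hx with rfl | rfl <;> simp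
    · intro x hx
      simp only [Finset.mem_insert, Finset.mem_singleton] at hx
      rcases hx with rfl | rfl
      exacts [mem_incs.2 ⟨t.alive j hjR.le, rfl⟩, h1]
  have hp := cluster_parity h (icls s fc (t.u j)) U
  rw [h3, Finset.sum_pair h2.symm, t.mate_u] at hp
  have e1 : (t.u j).1 = t.edge (j - 1) := by rw [edge, Nat.sub_add_cancel hj]
  rw [e1, show (flipEnd (t.u (j + 1))).1 = t.edge j from rfl] at hp
  have n1 := (s.mem_alive.1 (t.edge_alive (j := j - 1) (by omega))).2.2.2
  have n2 := (s.mem_alive.1 (t.edge_alive hjR)).2.2.2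
  revert hp
  split_ifs <;> simp_all

theorem parallel (h : Inv ends A fc.φ D β θ s) {j : ℕ} (hjR : j < R) (U : V) :
    (s.cl (ends (t.edge j)).1 = U ∨ s.cl (ends (t.edge j)).2 = U) ↔
      (s.cl (ends (t.edge 0)).1 = U ∨ s.cl (ends (t.edge 0)).2 = U) := by
  induction j with
  | zero => rfl
  | succ j ih =>
    rw [← ih (by omega)]
    exact (t.parallel_succ h (Nat.succ_pos j) hjR U).symm

end Thread

end Vale.Agent.P061.Apex
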