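import Mathlib
import Vale.Agent.P061.Treewidth.Defs

/-!
P061: multigraphs on a surface after the deletion of a few vertices. A face structure is given
combinatorially: each edge copy has two faces, every set of faces cuts out an even set of edges,
and these cuts miss at most `g` dimensions of the even sets.
-/

namespace Vale.Agent.P061.Apex

variable {V E : Type}

/-- The edge copies with both ends outside `A`. -/
def awayEdges (ends : E → V × V) (A : Set V) : Set E :=
  {e | (ends e).1 ∉ A ∧ (ends e).2 ∉ A}

/-- Every vertex meets an even number of edge ends of `Z`. -/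
def EvenSet (ends : E → V × V) (Z : Set E) : Prop :=
  ∀ v, Even ({e ∈ Z | (ends e).1 = v}.ncard + {e ∈ Z | (ends e).2 = v}.ncard)

/-- The edges of `H` with exactly one of their two faces in `R`. -/
def faceCut {Φ : Type} (φ : E → Φ × Φ) (H : Set E) (R : Set Φ) : Set E :=
  {e ∈ H | ¬ ((φ e).1 ∈ R ↔ (φ e).2 ∈ R)}

/-- The edge set `H` has a face structure of Euler genus at most `g`: every face cut is even, and
the face cuts are at least a `2 ^ (-g)` part of all even subsets of `H`. -/
def EulerGenusAtMost (ends : E → V × V) (H : Set E) (g : ℕ) : Prop :=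
  ∃ (Φ : Type) (_ : Fintype Φ) (φ : E → Φ × Φ),
    (∀ R : Set Φ, EvenSet ends (faceCut φ H R)) ∧
      {Z : Set E | Z ⊆ H ∧ EvenSet ends Z}.ncard ≤
        2 ^ g * {Z : Set E | ∃ R : Set Φ, Z = faceCut φ H R}.ncard

end Vale.Agent.P061.Apex
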