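import Vale.Agent.P061.Apex.State

/-!
P061 surfaces plus apices: Euler's bound on the special incidences of a state.
-/

open Finset

namespace Vale.Agent.P061.Apex

variable {V E Φ : Type} [Fintype V] [Fintype E] [DecidableEq V] [DecidableEq E] [Fintype Φ]
  {ends : E → V × V} {A : Finset V} {g D β θ : ℕ} {s : St V E}

/-- The coordinates of a chain supported on a finite set. -/
def suppEquiv (Y : Finset E) : suppOn (↑Y : Set E) ≃ₗ[ZMod 2] (↥Y → ZMod 2) where
  toFun z e := z.1 e.1
  map_add' _ _ := rfl
  map_smul' _ _ := rfl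
  invFun x := ⟨fun e => if h : e ∈ Y then x ⟨e, h⟩ else 0, fun e he => dif_neg he⟩
  left_inv z := by
    ext e
    by_cases h : e ∈ Y
    · simp [h]
    · simp [h, z.2 e h]
  right_inv x := by ext e; simp [e.2]

omit [Fintype E] in
theorem finrank_suppOn (Y : Finset E) :
    Module.finrank (ZMod 2) (suppOn (↑Y : Set E)) = Y.card := by
  rw [(suppEquiv Y).finrank_eq, Module.finrank_fintype_fun_eq_card, Fintype.card_coe]

variable (fc : Faces ends (awayEdges ends ↑A) Φ g) (s)

/-- The classes of faces of a state. -/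
abbrev Cls : Type := Quotient (classes fc.φ (s.free ends A))

/-- The class of an edge end. -/
def icls (i : E × Bool) : Cls s fc := Quotient.mk _ (face fc.φ i)

/-- The edge ends of alive edges. -/
noncomputable def ias : Finset (E × Bool) := s.alive ends A ×ˢ (Finset.univ : Finset Bool)

open Classical in
/-- The alive edge ends in a class. -/
noncomputable def incs (c : Cls s fc) : Finset (E × Bool) :=
  (ias (ends := ends) (A := A) s).filter fun i => icls s fc i = c

/-- Two classes joined by an alive edge. -/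
def CAdj (c d : Cls s fc) : Prop :=
  ∃ e ∈ s.alive ends A, icls s fc (e, true) = c ∧ icls s fc (e, false) = d

/-- The representative of the component of a class. -/
noncomputable def rep (c : Cls s fc) : Cls s fc :=
  (Quotient.mk (Relation.EqvGen.setoid (CAdj s fc)) c).out

/-- A class with two different alive edges which is not a representative. -/
def Good (c : Cls s fc) : Prop :=
  rep s fc c ≠ c ∧ (incs s fc c).card = 2 ∧
    ∀ i ∈ incs s fc c, ∀ i' ∈ incs s fc c, i ≠ i' → i.1 ≠ i'.1

variable {s fc}

theorem mem_ias {i : E × Bool} : i ∈ ias (ends := ends) (A := A) s ↔ i.1 ∈ s.alive ends A := by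
  simp [ias]

theorem mem_incs {c : Cls s fc} {i : E × Bool} :
    i ∈ incs s fc c ↔ i.1 ∈ s.alive ends A ∧ icls s fc i = c := by
  simp [incs, mem_ias]

theorem rep_adj {c d : Cls s fc} (h : CAdj s fc c d) : rep s fc c = rep s fc d := by
  unfold rep
  rw [Quotient.sound (s := Relation.EqvGen.setoid (CAdj s fc)) (Relation.EqvGen.rel _ _ h)]

theorem rep_mem {c : Cls s fc} (P : Set (Cls s fc))
    (hP : ∀ x y, CAdj s fc x y → (x ∈ P ↔ y ∈ P)) (hc : c ∈ P) : rep s fc c ∈ P := by
  have h : Relation.EqvGen (CAdj s fc) (rep s fc c) c :=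
    Quotient.mk_out (s := Relation.EqvGen.setoid (CAdj s fc)) c
  have : ∀ {x y}, Relation.EqvGen (CAdj s fc) x y → (x ∈ P ↔ y ∈ P) := fun h => by
    induction h with
    | rel _ _ h => exact hP _ _ h
    | refl => rfl
    | symm _ _ _ ih => exact ih.symm
    | trans _ _ _ _ _ ih ih' => exact ih.trans ih'
  exact (this h).2 hc

theorem cluster_parity (h : Inv ends A fc.φ D β θ s) (c : Cls s fc) (U : V) :
    ∑ i ∈ incs s fc c, ((if s.cl (ends i.1).1 = U then (1 : ZMod 2) else 0) +
      (if s.cl (ends i.1).2 = U then 1 else 0)) = 0 := by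
  classical
  set r : Φ → ZMod 2 := fun x =>
    if (Quotient.mk (classes fc.φ (s.free ends A)) x) = c then 1 else 0 with hr
  have hsum := sum_mul_bd ends (fun v => if s.cl v = U then (1 : ZMod 2) else 0)
    (fcut fc.φ (awayEdges ends ↑A) r)
  rw [fc.bd_fcut, Finset.sum_eq_zero (by simp)] at hsum
  refine Eq.trans ?_ hsum.symm
  rw [← Finset.sum_subset (Finset.subset_univ (s.alive ends A))]
  · rw [incs, Finset.sum_filter, ias, Finset.sum_product]
    refine Finset.sum_congr rfl fun e he => ?_
    rw [fcut_of_mem (s.mem_alive.1 he).1, Fintype.sum_bool]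
    simp only [hr, icls, face, cond_true, cond_false, add_mul, ite_mul, one_mul, zero_mul]
    congr! 1 <;> first | rfl | ring | skip
  · intro e _ he
    by_cases hH : e ∈ awayEdges ends ↑A
    · rw [fcut_of_mem hH]
      by_cases hN : e ∈ s.N
      · simp [h.inside e hN, two_add_self]
      · have : (Quotient.mk (classes fc.φ (s.free ends A)) (fc.φ e).1) =
            Quotient.mk (classes fc.φ (s.free ends A)) (fc.φ e).2 :=
          Quotient.sound (same_of_adj (adj2_self ⟨hH, hN, he⟩))
        simp [hr, this, two_add_self]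
    · rw [fcut_of_notMem hH, zero_mul]

theorem incs_card_ne_one (h : Inv ends A fc.φ D β θ s) (c : Cls s fc) :
    (incs s fc c).card ≠ 1 := by
  intro hc
  obtain ⟨i, hi⟩ := Finset.card_eq_one.1 hc
  have h1 := cluster_parity h c (s.cl (ends i.1).1)
  have hne := (s.mem_alive.1 (mem_incs.1 (by rw [hi]; simp : i ∈ incs s fc c)).1).2.2.2
  rw [hi, Finset.sum_singleton, if_pos rfl, if_neg (Ne.symm hne)] at h1
  exact (one_ne_zero : (1 : ZMod 2) ≠ 0) (by simpa using h1)

/-- A class with one alive edge is the representative of its component. -/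
theorem rep_self_of_loop {c : Cls s fc}
    (hloop : ∀ i ∈ incs s fc c, ∀ i' ∈ incs s fc c, i.1 = i'.1) (hc : (incs s fc c).card = 2) :
    rep s fc c = c := by
  refine rep_mem (c := c) {c} (fun x y hxy => ?_) rfl
  obtain ⟨e, he, rfl, rfl⟩ := hxy
  simp only [Set.mem_singleton_iff]
  obtain ⟨i, i', hne, hii⟩ := Finset.card_eq_two.1 hc
  have hi : i ∈ incs s fc c := by rw [hii]; simp
  have hi' : i' ∈ incs s fc c := by rw [hii]; simp
  have h1 := hloop i hi i' hi'
  have key : ∀ b, icls s fc (e, b) = c → icls s fc (e, !b) = c := by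
    intro b hb
    have hb' : (e, b) ∈ incs s fc c := mem_incs.2 ⟨he, hb⟩
    have h2 : e = i.1 := hloop _ hb' _ hi
    have h3 : i.2 ≠ i'.2 := fun h => hne (Prod.ext h1 h)
    by_cases hib : i.2 = !b
    · rw [show ((e, !b) : E × Bool) = i from Prod.ext h2 hib.symm]; exact (mem_incs.1 hi).2
    · rw [show ((e, !b) : E × Bool) = i' from Prod.ext (h2.trans h1) (by
        revert h3 hib; cases i.2 <;> cases i'.2 <;> cases b <;> simp)]
      exact (mem_incs.1 hi').2
  exact ⟨key true, key false⟩

theorem open_card (h : Inv ends A fc.φ D β θ s) :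
    (s.open_ A).card = (s.F.filter fun e => (ends e).1 ∈ s.open_ A).card + s.count A := by
  classical
  rw [Finset.card_eq_sum_card_image s.cl (s.open_ A),
    Finset.card_eq_sum_card_fiberwise (s := s.F.filter fun e => (ends e).1 ∈ s.open_ A)
      (f := fun e => s.cl (ends e).1) (t := (s.open_ A).image s.cl)
      (fun e he => Finset.mem_image_of_mem _ (Finset.mem_filter.1 he).2), St.count,
    Finset.card_eq_sum_ones ((s.open_ A).image s.cl), ← Finset.sum_add_distrib]
  refine Finset.sum_congr rfl fun U hU => ?_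
  obtain ⟨v, hv, rfl⟩ := Finset.mem_image.1 hU
  rw [s.mem_open] at hv
  have hmem : ∀ w, s.cl w = s.cl v → w ∈ s.open_ A := fun w hw =>
    s.mem_open.2 ⟨fun ha => hv.1 (h.apex w ha v hw.symm ▸ ha), by rw [h.tm_eq w v hw, hv.2]⟩
  have e1 : (s.open_ A).filter (fun w => s.cl w = s.cl v) =
      Finset.univ.filter fun w => s.cl w = s.cl v := by
    ext w; simp only [Finset.mem_filter, Finset.mem_univ, true_and]
    exact ⟨fun h => h.2, fun h' => ⟨hmem w h', h'⟩⟩
  have e2 : (s.F.filter fun e => (ends e).1 ∈ s.open_ A).filter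
      (fun e => s.cl (ends e).1 = s.cl v) = s.F.filter fun e => s.cl (ends e).1 = s.cl v := by
    ext e; simp only [Finset.mem_filter]
    exact ⟨fun h => ⟨h.1.1, h.2⟩, fun h' => ⟨⟨h'.1, hmem _ h'.2⟩, h'.2⟩⟩
  rw [e1, e2, h.size v hv.1]

theorem ker_dim (ends : E → V × V) (Y : Finset E) (W : Finset V)
    (hends : ∀ e ∈ Y, (ends e).1 ∈ W ∧ (ends e).2 ∈ W) :
    Y.card ≤ W.card +
      Module.finrank (ZMod 2) ↥(suppOn (↑Y : Set E) ⊓ LinearMap.ker (bd ends)) := by
  classical
  have h1 := LinearMap.finrank_range_add_finrank_ker ((bd ends).domRestrict (suppOn (↑Y : Set E)))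
  have h2 : LinearMap.range ((bd ends).domRestrict (suppOn (↑Y : Set E))) ≤
      suppOn (↑W : Set V) := by
    rintro _ ⟨z, rfl⟩ v hv
    refine Finset.sum_eq_zero fun e _ => ?_
    by_cases he : e ∈ Y
    · have := hends e he
      rw [if_neg fun h => hv (by rw [← h]; exact this.1),
        if_neg fun h => hv (by rw [← h]; exact this.2)]
      simp
    · simp [z.2 e he]
  have h3 := Submodule.finrank_mono h2
  rw [finrank_suppOn] at h1 h3
  have h4 : Module.finrank (ZMod 2)
      (LinearMap.ker ((bd ends).domRestrict (suppOn (↑Y : Set E)))) =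
        Module.finrank (ZMod 2) ↥(suppOn (↑Y : Set E) ⊓ LinearMap.ker (bd ends)) := by
    rw [← Submodule.map_comap_subtype, Submodule.finrank_map_subtype_eq, LinearMap.ker_domRestrict]
  omega

/-- The map from colourings of some classes to alive edges. -/
noncomputable def gamma [DecidableEq (Cls s fc)] (Q : Finset (Cls s fc)) :
    (↥Q → ZMod 2) →ₗ[ZMod 2] (↥(s.alive ends A) → ZMod 2) where
  toFun x e := (if h : icls s fc (e.1, true) ∈ Q then x ⟨_, h⟩ else 0) +
    (if h : icls s fc (e.1, false) ∈ Q then x ⟨_, h⟩ else 0)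
  map_add' x y := by
    ext e
    simp only [Pi.add_apply]
    split_ifs <;> simp [add_add_add_comm]
  map_smul' a x := by
    ext e
    simp only [Pi.smul_apply, RingHom.id_apply, smul_eq_mul]
    split_ifs <;> simp [mul_add]

/-- Even chains on alive and chosen edges which are face cuts. -/
theorem meet_dim [DecidableEq (Cls s fc)] (h : Inv ends A fc.φ D β θ s) (Q : Finset (Cls s fc))
    (hQ : ∀ c ∈ (ias (ends := ends) (A := A) s).image (icls s fc), rep s fc c ≠ c → c ∈ Q) :
    Module.finrank (ZMod 2)
      ↥((suppOn (↑(s.alive ends A ∪ s.F.filter fun e => (ends e).1 ∈ s.open_ A) : Set E) ⊓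
          LinearMap.ker (bd ends)) ⊓ LinearMap.range (fcut fc.φ (awayEdges ends ↑A))) ≤ Q.card := by
  classical
  set M := (suppOn (↑(s.alive ends A ∪ s.F.filter fun e => (ends e).1 ∈ s.open_ A) : Set E) ⊓
    LinearMap.ker (bd ends)) ⊓ LinearMap.range (fcut fc.φ (awayEdges ends ↑A)) with hM
  let π : (E → ZMod 2) →ₗ[ZMod 2] (↥(s.alive ends A) → ZMod 2) :=
    LinearMap.funLeft (ZMod 2) (ZMod 2) Subtype.val
  have hinj : Function.Injective (π.domRestrict M) := by
    rw [← LinearMap.ker_eq_bot, LinearMap.ker_eq_bot']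
    intro z hz
    refine Subtype.ext (h.indep z.1 (fun e he => ?_) (LinearMap.mem_ker.1 z.2.1.2))
    by_cases ha : e ∈ s.alive ends A
    · exact congrFun hz ⟨e, ha⟩
    · refine z.2.1.1 e fun hY' => ?_
      rcases Finset.mem_union.1 hY' with hY' | hY'
      exacts [ha hY', he (Finset.mem_filter.1 hY').1]
  have hrange : LinearMap.range (π.domRestrict M) ≤ LinearMap.range (gamma Q) := by
    rintro _ ⟨⟨z, hzL, r, rfl⟩, rfl⟩
    have hconst : ∀ e ∈ s.free ends A, r (fc.φ e).1 = r (fc.φ e).2 := by
      intro e he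
      have h0 : fcut fc.φ (awayEdges ends ↑A) r e = 0 := hzL.1 e fun h' => by
        rcases Finset.mem_union.1 h' with h' | h'
        exacts [he.2.2 h', he.2.1 (h.sub (Finset.mem_filter.1 h').1)]
      rw [fcut_of_mem he.1] at h0
      exact two_eq h0
    let rC : Cls s fc → ZMod 2 := Quotient.lift r fun x y hxy => same_const r hconst hxy
    refine ⟨fun c => rC c.1 + rC (rep s fc c.1), funext fun e => ?_⟩
    have key : ∀ b, (if icls s fc (e.1, b) ∈ Q then
        rC (icls s fc (e.1, b)) + rC (rep s fc (icls s fc (e.1, b))) else 0) =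
        rC (icls s fc (e.1, b)) + rC (rep s fc (icls s fc (e.1, b))) := by
      intro b
      split_ifs with hq
      · rfl
      · have : rep s fc (icls s fc (e.1, b)) = icls s fc (e.1, b) := by
          by_contra hne
          exact hq (hQ _ (Finset.mem_image_of_mem _ (mem_ias.2 e.2)) hne)
        rw [this, two_add_self]
    simp only [gamma, LinearMap.coe_mk, AddHom.coe_mk, dite_eq_ite, π, LinearMap.domRestrict_apply,
      LinearMap.funLeft_apply]
    rw [key true, key false, rep_adj ⟨e.1, e.2, rfl, rfl⟩, add_add_add_comm, two_add_self,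
      add_zero, fcut_of_mem (s.mem_alive.1 e.2).1]
    rfl
  rw [← LinearMap.finrank_range_of_inj hinj]
  refine (Submodule.finrank_mono hrange).trans ((LinearMap.finrank_range_le (gamma Q)).trans ?_)
  rw [Module.finrank_fintype_fun_eq_card, Fintype.card_coe]

theorem card_alive_le (h : Inv ends A fc.φ D β θ s) [DecidableEq (Cls s fc)] :
    (s.alive ends A).card ≤ s.count A + g +
      (((ias (ends := ends) (A := A) s).image (icls s fc)).filter fun c => rep s fc c ≠ c).card := by
  classical
  set Q := ((ias (ends := ends) (A := A) s).image (icls s fc)).filter fun c => rep s fc c ≠ c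
    with hQ
  set Fu := s.F.filter fun e => (ends e).1 ∈ s.open_ A with hFu
  set Y := s.alive ends A ∪ Fu with hY
  have hYH : ∀ e ∈ Y, e ∈ awayEdges ends ↑A := by
    intro e he
    rcases Finset.mem_union.1 he with he | he
    exacts [(s.mem_alive.1 he).1, h.away e (h.sub (Finset.mem_filter.1 he).1)]
  have hends : ∀ e ∈ Y, (ends e).1 ∈ s.open_ A ∧ (ends e).2 ∈ s.open_ A := by
    intro e he
    rcases Finset.mem_union.1 he with he | he
    · obtain ⟨h1, h2, h3, -⟩ := s.mem_alive.1 he
      exact ⟨s.mem_open.2 ⟨h1.1, h2⟩, s.mem_open.2 ⟨h1.2, h3⟩⟩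
    · obtain ⟨hF, h1⟩ := Finset.mem_filter.1 he
      refine ⟨h1, s.mem_open.2 ⟨(hYH e (Finset.mem_union_right _ he)).2, ?_⟩⟩
      rw [← h.tm_eq _ _ (h.inside e (h.sub hF))]
      exact (s.mem_open.1 h1).2
  set L := suppOn (↑Y : Set E) ⊓ LinearMap.ker (bd ends) with hL
  set R := LinearMap.range (fcut fc.φ (awayEdges ends ↑A)) with hR
  have hLdim : Y.card ≤ (s.open_ A).card + Module.finrank (ZMod 2) L :=
    ker_dim ends Y (s.open_ A) hends
  have hYcard : Y.card = (s.alive ends A).card + Fu.card := by
    rw [hY, Finset.card_union_of_disjoint]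
    rw [Finset.disjoint_left]
    intro e he he'
    exact (s.mem_alive.1 he).2.2.2 (h.inside e (h.sub (Finset.mem_filter.1 he').1))
  have hLR : Module.finrank (ZMod 2) L ≤ g + Module.finrank (ZMod 2) ↥(L ⊓ R) := by
    have h1 := Submodule.finrank_sup_add_finrank_inf_eq L R
    have h2 : L ⊔ R ≤ suppOn (awayEdges ends ↑A) ⊓ LinearMap.ker (bd ends) := by
      refine sup_le (fun z hz => ⟨fun e he => hz.1 e fun h' => he (hYH e h'), hz.2⟩) ?_
      rintro _ ⟨r, rfl⟩
      exact ⟨fun e he => fcut_of_notMem he r, LinearMap.mem_ker.2 (fc.bd_fcut r)⟩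
    have h3 := Submodule.finrank_mono h2
    have h4 := fc.dim
    rw [← hR] at h4
    omega
  have hL' : Module.finrank (ZMod 2) ↥(L ⊓ R) ≤ Q.card :=
    meet_dim h Q (fun c hc hne => Finset.mem_filter.2 ⟨hc, hne⟩)
  have := open_card h
  rw [← hFu] at this
  omega

/-- Euler: there are few alive edge ends at classes which are not good. -/
theorem special_le (h : Inv ends A fc.φ D β θ s) :
    open Classical in ((ias (ends := ends) (A := A) s).filter fun i => ¬ Good s fc (icls s fc i)).card
      ≤ 6 * (s.count A + g) := by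
  classical
  set I := ias (ends := ends) (A := A) s with hI
  set C := I.image (icls s fc) with hC
  have hdim := card_alive_le h
  rw [← hI, ← hC] at hdim
  have hIcard : I.card = 2 * (s.alive ends A).card := by
    rw [hI, ias, Finset.card_product, Finset.card_univ, Fintype.card_bool, Nat.mul_comm]
  have hfib : ∀ c, (I.filter fun i => icls s fc i = c) = incs s fc c := fun c => by
    simp [incs, hI]
  set G := C.filter fun c => Good s fc c
  set S3 := C.filter fun c => 3 ≤ (incs s fc c).card
  have hgood : (I.filter fun i => Good s fc (icls s fc i)).card = 2 * G.card := by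
    rw [Finset.card_eq_sum_card_fiberwise (t := G) (f := icls s fc)
      (fun i hi => by
        simp only [Finset.coe_filter, Set.mem_ofPred_eq] at hi
        exact Finset.mem_filter.2 ⟨Finset.mem_image_of_mem _ hi.1, hi.2⟩),
      Finset.sum_const_nat (m := 2), Nat.mul_comm]
    intro c hc
    rw [Finset.filter_filter]
    have : (I.filter fun i => Good s fc (icls s fc i) ∧ icls s fc i = c) = incs s fc c := by
      rw [← hfib]
      exact Finset.filter_congr fun i _ => ⟨fun h => h.2, fun h => ⟨h ▸ (Finset.mem_filter.1 hc).2, h⟩⟩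
    rw [this]
    exact (Finset.mem_filter.1 hc).2.2.1
  have hsplit := Finset.card_filter_add_card_filter_not (s := I) fun i => Good s fc (icls s fc i)
  have hQ : (C.filter fun c => rep s fc c ≠ c).card ≤ G.card + S3.card := by
    refine (Finset.card_le_card fun c hc => ?_).trans (Finset.card_union_le _ _)
    obtain ⟨hcC, hrep⟩ := Finset.mem_filter.1 hc
    rw [Finset.mem_union, Finset.mem_filter, Finset.mem_filter]
    by_cases h3 : 3 ≤ (incs s fc c).card
    · exact .inr ⟨hcC, h3⟩
    have hpos : 0 < (incs s fc c).card := by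
      obtain ⟨i, hi, rfl⟩ := Finset.mem_image.1 hcC
      exact Finset.card_pos.2 ⟨i, by rw [← hfib]; simp [hi]⟩
    have := incs_card_ne_one h c
    have h2 : (incs s fc c).card = 2 := by omega
    refine .inl ⟨hcC, hrep, h2, fun i hi i' hi' hne h1 => hrep (rep_self_of_loop ?_ h2)⟩
    have hpair : incs s fc c = {i, i'} := (Finset.eq_of_subset_of_card_le
      (by intro x hx; simp only [Finset.mem_insert, Finset.mem_singleton] at hx
          rcases hx with rfl | rfl <;> assumption)
      (by rw [h2, Finset.card_pair hne])).symm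
    intro x hx y hy
    rw [hpair, Finset.mem_insert, Finset.mem_singleton] at hx hy
    rcases hx with rfl | rfl <;> rcases hy with rfl | rfl <;> simp [h1]
  have hS3 : 3 * S3.card ≤ (I.filter fun i => ¬ Good s fc (icls s fc i)).card := by
    have h1 : S3.card * 3 ≤ ∑ c ∈ S3, (incs s fc c).card := by
      simpa using Finset.card_nsmul_le_sum S3 (fun c => (incs s fc c).card) 3
        fun c hc => (Finset.mem_filter.1 hc).2
    rw [Nat.mul_comm]
    refine h1.trans ?_
    rw [← Finset.card_biUnion]
    · refine Finset.card_le_card fun i hi => ?_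
      obtain ⟨c, hc, hi⟩ := Finset.mem_biUnion.1 hi
      rw [← hfib, Finset.mem_filter] at hi
      refine Finset.mem_filter.2 ⟨hi.1, fun hg => ?_⟩
      have := (Finset.mem_filter.1 hc).2
      rw [← hi.2] at this
      have := hg.2.1
      omega
    · intro c _ d _ hne
      rw [Function.onFun, Finset.disjoint_left]
      intro i hi hi'
      exact hne ((mem_incs.1 hi).2.symm.trans (mem_incs.1 hi').2)
  omega

end Vale.Agent.P061.Apex
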