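import Vale.Agent.P061.Apex.Process

/-!
P061 surfaces plus apices: the chosen forest is thin.
-/

open Finset

namespace Vale.Agent.P061.Apex

variable {V E Φ : Type} [Fintype V] [Fintype E] [DecidableEq V] [DecidableEq E] [Fintype Φ]
  {ends : E → V × V} {A : Finset V} {g D β θ : ℕ} {s : St V E}
  {fc : Faces ends (awayEdges ends ↑A) Φ g}

open Classical in
/-- The away edges crossing `S`. -/
noncomputable def crossH (ends : E → V × V) (A : Finset V) (S : Set V) : Finset E :=
  univ.filter fun e => e ∈ awayEdges ends ↑A ∧ ((ends e).1 ∈ S ↔ (ends e).2 ∉ S)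

theorem forest_thin (h : Inv ends A fc.φ D β θ s) (hal : s.alive ends A = ∅) {q : ℕ}
    (hD : 2 * q ≤ D) (S : Set V) :
    2 * q * (s.F ∩ crossH ends A S).card ≤ (crossH ends A S).card := by
  classical
  rcases Nat.eq_zero_or_pos q with rfl | hq
  · simp
  set B := crossH ends A S with hB
  have hmemB : ∀ e, e ∈ B ↔ e ∈ awayEdges ends ↑A ∧
      ((ends e).1 ∈ S ↔ (ends e).2 ∉ S) := fun e => by simp [hB, crossH]
  let W : E × Bool → ℕ → Set Φ := fun i j =>
    {y | ∃ l ≤ j, Reach fc.φ (s.free ends A) s.costly (face fc.φ i) y l}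
  let I := (s.F ∩ B) ×ˢ (univ : Finset Bool)
  have hI : ∀ i ∈ I, i.1 ∈ s.F ∧ i.1 ∈ B := fun i hi =>
    Finset.mem_inter.1 (Finset.mem_product.1 hi).1
  have hexists : ∀ i ∈ I, ∀ j < q, ∃ e ∈ B,
      e ∈ s.costly ∧ ¬ ((fc.φ e).1 ∈ W i j ↔ (fc.φ e).2 ∈ W i j) := by
    intro i hi j hj
    set r : Φ → ZMod 2 := chain (W i j) with hr
    set χ : V → ZMod 2 := chain S
    set z := fcut fc.φ (awayEdges ends ↑A) r with hz
    have hsum := sum_mul_bd ends χ z
    rw [hz, fc.bd_fcut, Finset.sum_eq_zero (by simp)] at hsum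
    have hi1 : face fc.φ i ∈ W i j := ⟨0, Nat.zero_le _, .refl⟩
    have hne : i ≠ flipEnd i := fun h' => Bool.not_ne_self _ (congrArg Prod.snd h').symm
    have hi2 : face fc.φ (flipEnd i) ∉ W i j := by
      rintro ⟨l, hl, hr'⟩
      have := h.apart i (flipEnd i) (hI i hi).1 (hI i hi).1 hne l hr'
      omega
    by_contra hno
    push Not at hno
    rw [Finset.sum_eq_single i.1] at hsum
    · obtain ⟨hH, hcr⟩ := (hmemB _).1 (hI i hi).2
      rw [fcut_of_mem hH] at hsum
      have h1 : r (fc.φ i.1).1 + r (fc.φ i.1).2 = 1 := by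
        cases hb : i.2 <;> simp only [face, flipEnd, hb, cond_true, cond_false, Bool.not_true,
          Bool.not_false] at hi1 hi2 <;> simp [hr, chain, hi1, hi2]
      have h2 : χ (ends i.1).1 + χ (ends i.1).2 = 1 := by
        by_cases a1 : (ends i.1).1 ∈ S
        · simp [χ, chain, a1, hcr.1 a1]
        · have a2 : (ends i.1).2 ∈ S := by
            by_contra a2; exact a1 (hcr.2 a2)
          simp [χ, chain, a1, a2]
      rw [h1, h2, one_mul] at hsum
      exact zero_ne_one hsum
    · intro e _ hei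
      by_cases hH : e ∈ awayEdges ends ↑A
      · rw [fcut_of_mem hH]
        by_cases hcr : (ends e).1 ∈ S ↔ (ends e).2 ∉ S
        · have heB : e ∈ B := (hmemB e).2 ⟨hH, hcr⟩
          suffices hsame : (fc.φ e).1 ∈ W i j ↔ (fc.φ e).2 ∈ W i j by
            have hr2 : r (fc.φ e).1 = r (fc.φ e).2 := by
              by_cases a1 : (fc.φ e).1 ∈ W i j
              · simp [hr, chain, a1, hsame.1 a1]
              · simp [hr, chain, a1, mt hsame.2 a1]
            rw [hr2, two_add_self, zero_mul]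
          by_cases hF : e ∈ s.F
          · have key : ∀ b, face fc.φ (e, b) ∉ W i j := by
              rintro b ⟨l, hl, hr'⟩
              have := h.apart i (e, b) (hI i hi).1 hF (fun h' => hei (by rw [h'])) l hr'
              omega
            exact iff_of_false (key true) (key false)
          by_cases hN : e ∈ s.N
          · exact hno e heB ⟨hN, hF⟩
          · have hfree : e ∈ s.free ends A := ⟨hH, hN, by simp [hal]⟩
            constructor
            · rintro ⟨l, hl, hr'⟩; exact ⟨l, hl, hr'.free (adj2_self hfree)⟩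
            · rintro ⟨l, hl, hr'⟩; exact ⟨l, hl, hr'.free (adj2_self hfree).symm⟩
        · have : χ (ends e).1 + χ (ends e).2 = 0 := by
            by_cases a1 : (ends e).1 ∈ S <;> by_cases a2 : (ends e).2 ∈ S
            · simp [χ, chain, a1, a2, two_add_self]
            · exact absurd (iff_of_true a1 a2) hcr
            · exact absurd (iff_of_false a1 (not_not.2 a2)) hcr
            · simp [χ, chain, a1, a2]
          rw [this, mul_zero]
      · rw [fcut_of_notMem hH, zero_mul]
    · simp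
  choose f hfB hfc hfW using hexists
  let P := I ×ˢ Finset.range q
  have hP : P.card = 2 * q * (s.F ∩ B).card := by
    simp only [P, I, Finset.card_product, Finset.card_univ, Fintype.card_bool, Finset.card_range]
    ring
  rw [← hP]
  have hlink : ∀ i j e, e ∈ s.costly → ¬ ((fc.φ e).1 ∈ W i j ↔ (fc.φ e).2 ∈ W i j) →
      (∃ l ≤ j + 1, Reach fc.φ (s.free ends A) s.costly (face fc.φ i) (fc.φ e).1 l) ∧
      (∃ l ≤ j + 1, Reach fc.φ (s.free ends A) s.costly (face fc.φ i) (fc.φ e).2 l) ∧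
      ((fc.φ e).1 ∈ W i j ∨ (fc.φ e).2 ∈ W i j) := by
    intro i j e he hne
    by_cases a1 : (fc.φ e).1 ∈ W i j
    · obtain ⟨l, hl, hr'⟩ := a1
      exact ⟨⟨l, by omega, hr'⟩, ⟨l + 1, by omega, hr'.cost (adj2_self he)⟩, .inl ⟨l, hl, hr'⟩⟩
    · have a2 : (fc.φ e).2 ∈ W i j := by
        by_contra a2; exact hne (iff_of_false a1 a2)
      obtain ⟨l, hl, hr'⟩ := a2
      exact ⟨⟨l + 1, by omega, hr'.cost (adj2_self he).symm⟩, ⟨l, by omega, hr'⟩,
        .inr ⟨l, hl, hr'⟩⟩
  refine Finset.card_le_card_of_injOn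
    (fun p => if hp : p.1 ∈ I ∧ p.2 < q then f p.1 hp.1 p.2 hp.2 else p.1.1) ?_ ?_
  · rintro ⟨i, j⟩ hp
    simp only [P, Finset.coe_product, Set.mem_prod, Finset.mem_coe, Finset.mem_range] at hp
    simp only [Finset.mem_coe, dif_pos hp]
    exact hfB _ _ _ _
  · rintro ⟨i, j⟩ hp ⟨i', j'⟩ hp' heq
    simp only [P, Finset.coe_product, Set.mem_prod, Finset.mem_coe, Finset.mem_range] at hp hp'
    simp only [dif_pos hp, dif_pos hp'] at heq
    have hc := hfc i hp.1 j hp.2
    have hW := hfW i hp.1 j hp.2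
    have hW' := hfW i' hp'.1 j' hp'.2
    rw [← heq] at hW'
    generalize f i hp.1 j hp.2 = e at hc hW hW'
    obtain ⟨⟨l1, hl1, r1⟩, ⟨l2, hl2, r2⟩, -⟩ := hlink i j e hc hW
    obtain ⟨-, -, hor⟩ := hlink i' j' e hc hW'
    have hii : i = i' := by
      by_contra hne
      rcases hor with ⟨l', hl', r'⟩ | ⟨l', hl', r'⟩
      · have := h.apart i i' (hI i hp.1).1 (hI i' hp'.1).1 hne _ (r1.trans r'.symm)
        omega
      · have := h.apart i i' (hI i hp.1).1 (hI i' hp'.1).1 hne _ (r2.trans r'.symm)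
        omega
    subst hii
    rcases lt_trichotomy j j' with hjj | hjj | hjj
    · exact absurd (iff_of_true ⟨l1, by omega, r1⟩ ⟨l2, by omega, r2⟩) hW'
    · rw [hjj]
    · obtain ⟨⟨l1', hl1', r1'⟩, ⟨l2', hl2', r2'⟩, -⟩ := hlink i j' e hc hW'
      exact absurd (iff_of_true ⟨l1', by omega, r1'⟩ ⟨l2', by omega, r2'⟩) hW

end Vale.Agent.P061.Apex
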