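import Vale.Agent.P061.Apex.Merge

/-!
P061 surfaces plus apices: joining a cluster to an apex, and the process.
-/

open Finset

namespace Vale.Agent.P061.Apex

variable {V E Φ : Type} [Fintype V] [Fintype E] [DecidableEq V] [DecidableEq E] [Fintype Φ]
  {ends : E → V × V} {A : Finset V} {g D β θ : ℕ} {s : St V E}
  {φ : E → Φ × Φ}

/-- The state after the cluster of `v₀` joins the apex `a`. -/
def St.join (s : St V E) (v₀ a : V) : St V E where
  cl := s.cl
  tm w := if s.cl w = s.cl v₀ then 1 else if 0 < s.tm w then s.tm w + 1 else 0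
  lab w := if s.cl w = s.cl v₀ then a else s.lab w
  F := s.F
  N := s.N

theorem inv_join (h : Inv ends A φ D β θ s) {v₀ a : V} (hv : v₀ ∉ A) (h0 : s.tm v₀ = 0)
    (ha : a ∈ A)
    (hlow : open Classical in ((s.alive ends A).filter fun e =>
      s.cl (ends e).1 = s.cl v₀ ∨ s.cl (ends e).2 = s.cl v₀).card < β)
    (hθ : open Classical in θ ≤ (univ.filter fun e => Link ends e (fun u => s.cl u = s.cl v₀)
      (fun w => w = a ∨ (w ∉ A ∧ 0 < s.tm w ∧ s.lab w = a))).card) :
    Inv ends A φ D β θ (s.join v₀ a) := by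
  classical
  set s' := s.join v₀ a with hs'
  have htm : ∀ w, s'.tm w =
      if s.cl w = s.cl v₀ then 1 else if 0 < s.tm w then s.tm w + 1 else 0 := fun _ => rfl
  have hlab : ∀ w, s'.lab w = if s.cl w = s.cl v₀ then a else s.lab w := fun _ => rfl
  have hnew : ∀ w, s.cl w = s.cl v₀ → s.tm w = 0 := fun w hw => (h.tm_eq w v₀ hw).trans h0
  have hnewA : ∀ w, s.cl w = s.cl v₀ → w ∉ A := fun w hw hwA =>
    hv (h.apex w hwA v₀ hw.symm ▸ hwA)
  have hzero : ∀ w, s'.tm w = 0 ↔ s.cl w ≠ s.cl v₀ ∧ s.tm w = 0 := by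
    intro w; rw [htm]; split_ifs with h1 h2 <;> simp [h1] <;> omega
  have halive : ∀ e, e ∈ s'.alive ends A ↔ e ∈ s.alive ends A ∧
      s.cl (ends e).1 ≠ s.cl v₀ ∧ s.cl (ends e).2 ≠ s.cl v₀ := by
    intro e
    rw [s'.mem_alive, s.mem_alive, hzero, hzero]
    exact ⟨fun ⟨a1, ⟨a2, a3⟩, ⟨a4, a5⟩, a6⟩ => ⟨⟨a1, a3, a5, a6⟩, a2, a4⟩,
      fun ⟨⟨a1, a3, a5, a6⟩, a2, a4⟩ => ⟨a1, ⟨a2, a3⟩, ⟨a4, a5⟩, a6⟩⟩
  have hfree : s'.free ends A ⊆ s.free ends A ∪ (↑(s.alive ends A) : Set E) := by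
    rintro e ⟨hH, hN, -⟩
    by_cases he : e ∈ s.alive ends A
    exacts [.inr he, .inl ⟨hH, hN, he⟩]
  have hfree' : s.free ends A ⊆ s'.free ends A := fun e ⟨hH, hN, he⟩ =>
    ⟨hH, hN, fun h' => he ((halive e).1 h').1⟩
  have hcost : s'.costly ⊆ s.costly ∪ (↑(s.alive ends A) : Set E) := fun e he => .inl he
  have hinc : ∀ x, Inc φ (↑(s'.alive ends A) : Set E) x → Inc φ (↑(s.alive ends A) : Set E) x :=
    fun x ⟨e, he, h'⟩ => ⟨e, ((halive e).1 he).1, h'⟩
  have hold : ∀ v, v ∉ A → s.cl v ≠ s.cl v₀ → 0 < s'.tm v →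
      0 < s.tm v ∧ s'.tm v = s.tm v + 1 := by
    intro v _ hne hpos
    rw [htm, if_neg hne] at hpos ⊢
    split_ifs at hpos ⊢ with h1
    · exact ⟨h1, rfl⟩
    · omega
  refine
    { sub := h.sub, away := h.away, inside := h.inside, tm_eq := ?_, apex := h.apex,
      indep := h.indep, size := h.size, linked := h.linked, sep := ?_, far := ?_, apart := ?_,
      tm_inj := ?_, lab_mem := ?_, lab_eq := ?_, later_lt := ?_, toward_le := ?_ }
  · intro u v huv
    change s.cl u = s.cl v at huv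
    rw [htm, htm, huv, h.tm_eq u v huv]
  · intro x y j hx hy hr
    set o : Φ → ℕ := fun z => if Same φ (s'.free ends A) x z then 0 else D with ho_def
    have hcongr : ∀ p q, Same φ (s'.free ends A) p q → o p = o q := fun p q hpq => by
      simp only [ho_def]
      by_cases h1 : Same φ (s'.free ends A) x p
      · rw [if_pos h1, if_pos (h1.trans hpq)]
      · rw [if_neg h1, if_neg fun h2 => h1 (h2.trans hpq.symm)]
    rcases reach_potential hfree hcost h.sep o (fun p q hpq => hcongr p q (hpq.mono hfree'))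
        (fun p q ⟨e, he, hpq⟩ => (hcongr p q (same_of_adj ⟨e, he.1, hpq⟩)).ge)
        (fun p q ⟨e, ⟨he, he'⟩, _⟩ => absurd (h.inside e he.1) (s.mem_alive.1 he').2.2.2)
        (hinc x hx) (hinc y hy) hr with hb | hb
    · exact .inr hb
    simp only [ho_def, if_pos (Same.refl x)] at hb
    split_ifs at hb with h1
    exacts [.inl h1, .inr (by omega)]
  · intro i hi y j hy hr
    rcases reach_of_far hfree hcost (h.far i hi) hr with hr | hr
    exacts [hr, h.far i hi y j (hinc y hy) hr]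
  · intro i i' hi hi' hne j hr
    rcases reach_of_far hfree hcost (h.far i hi) hr with hr | hr
    exacts [hr, h.apart i i' hi hi' hne j hr]
  · intro u v hu hv' hpos heq
    show s.cl u = s.cl v
    by_cases h1 : s.cl u = s.cl v₀
    · by_cases h2 : s.cl v = s.cl v₀
      · exact h1.trans h2.symm
      · obtain ⟨q1, q2⟩ := hold v hv' h2 (heq ▸ hpos)
        rw [htm u, if_pos h1] at heq
        omega
    · obtain ⟨p1, p2⟩ := hold u hu h1 hpos
      by_cases h2 : s.cl v = s.cl v₀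
      · rw [htm v, if_pos h2] at heq; omega
      · obtain ⟨q1, q2⟩ := hold v hv' h2 (heq ▸ hpos)
        exact h.tm_inj u v hu hv' p1 (by omega)
  · intro v hv' hpos
    rw [hlab]
    split_ifs with h1
    exacts [ha, h.lab_mem v hv' (hold v hv' h1 hpos).1]
  · intro u v hu hv' hpos huv
    change s.cl u = s.cl v at huv
    rw [hlab, hlab, huv]
    split_ifs with h1
    exacts [rfl, h.lab_eq u v hu hv' (hold v hv' h1 hpos).1 huv]
  · intro v hv' hpos
    by_cases h1 : s.cl v = s.cl v₀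
    · refine lt_of_le_of_lt (Finset.card_le_card fun e he => ?_) hlow
      rw [s'.mem_later] at he
      obtain ⟨hH, he⟩ := he
      rw [Finset.mem_filter, s.mem_alive]
      have hv1 : s'.tm v = 1 := by rw [htm, if_pos h1]
      rcases he with ⟨hP, hQ⟩ | ⟨hP, hQ⟩ <;> change s.cl _ = s.cl v at hP <;>
        rw [h1] at hP <;> rw [hv1] at hQ <;>
        obtain ⟨q1, q2⟩ := (hzero _).1 (Nat.lt_one_iff.1 hQ)
      · exact ⟨⟨hH, hnew _ hP, q2, fun hh => q1 (hh.symm.trans hP)⟩, .inl hP⟩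
      · exact ⟨⟨hH, q2, hnew _ hP, fun hh => q1 (hh.trans hP)⟩, .inr hP⟩
    · obtain ⟨hp, hp'⟩ := hold v hv' h1 hpos
      refine lt_of_le_of_lt (Finset.card_le_card fun e he => ?_) (h.later_lt v hv' hp)
      rw [s'.mem_later] at he
      rw [s.mem_later]
      refine ⟨he.1, he.2.imp (fun hh => ⟨hh.1, ?_⟩) fun hh => ⟨hh.1, ?_⟩⟩ <;>
      · have := hh.2
        show _ < s.tm v
        rw [hp', htm] at this
        split_ifs at this with a1 a2
        · rw [hnew _ a1]; exact hp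
        all_goals omega
  · intro v hv' hpos
    by_cases h1 : s.cl v = s.cl v₀
    · refine le_trans hθ (Finset.card_le_card fun e he => ?_)
      rw [s'.mem_toward]
      have hv1 : s'.tm v = 1 := by rw [htm, if_pos h1]
      have hl : s'.lab v = a := by rw [hlab, if_pos h1]
      have key : ∀ w, (w = a ∨ (w ∉ A ∧ 0 < s.tm w ∧ s.lab w = a)) →
          (w = s'.lab v ∨ (w ∉ A ∧ s'.tm v < s'.tm w ∧ s'.lab w = s'.lab v)) := by
        rintro w (rfl | ⟨q1, q2, q3⟩)
        · exact .inl hl.symm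
        · have hne : s.cl w ≠ s.cl v₀ := fun hh => by rw [hnew w hh] at q2; omega
          exact .inr ⟨q1, by rw [hv1, htm, if_neg hne, if_pos q2]; omega,
            by rw [hl, hlab, if_neg hne, q3]⟩
      rcases (Finset.mem_filter.1 he).2 with ⟨hP, hQ⟩ | ⟨hP, hQ⟩
      · exact .inl ⟨show s.cl _ = s.cl v by rw [h1]; exact hP, key _ hQ⟩
      · exact .inr ⟨show s.cl _ = s.cl v by rw [h1]; exact hP, key _ hQ⟩
    · obtain ⟨hp, hp'⟩ := hold v hv' h1 hpos
      refine le_trans (h.toward_le v hv' hp) (Finset.card_le_card fun e he => ?_)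
      rw [s.mem_toward] at he
      rw [s'.mem_toward]
      have key : ∀ w, (w = s.lab v ∨ (w ∉ A ∧ s.tm v < s.tm w ∧ s.lab w = s.lab v)) →
          (w = s'.lab v ∨ (w ∉ A ∧ s'.tm v < s'.tm w ∧ s'.lab w = s'.lab v)) := by
        rintro w (rfl | ⟨q1, q2, q3⟩)
        · exact .inl (by rw [hlab, if_neg h1])
        · have hne : s.cl w ≠ s.cl v₀ := fun hh => by rw [hnew w hh] at q2; omega
          exact .inr ⟨q1, by rw [hp', htm, if_neg hne, if_pos (by omega)]; omega,
            by rw [hlab, hlab, if_neg hne, if_neg h1, q3]⟩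
      exact he.imp (fun hh => ⟨hh.1, key _ hh.2⟩) fun hh => ⟨hh.1, key _ hh.2⟩

theorem count_join {v₀ a : V} (hv : v₀ ∉ A) (h0 : s.tm v₀ = 0) :
    (s.join v₀ a).count A < s.count A := by
  classical
  refine lt_of_le_of_lt (Finset.card_le_card ?_)
    (Finset.card_erase_lt_of_mem (Finset.mem_image_of_mem s.cl (s.mem_open.2 ⟨hv, h0⟩)))
  intro x hx
  obtain ⟨w, hw, rfl⟩ := Finset.mem_image.1 hx
  rw [St.mem_open] at hw
  obtain ⟨hwA, hw⟩ := hw
  simp only [St.join] at hw ⊢
  split_ifs at hw with h1 h2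
  exact Finset.mem_erase.2 ⟨h1, Finset.mem_image_of_mem _ (s.mem_open.2 ⟨hwA, by omega⟩)⟩

end Vale.Agent.P061.Apex
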