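import Vale.Agent.P061.Apex.Defs

/-!
P061 surfaces plus apices: boundaries and face cuts over the field with two elements.
-/

open Finset

namespace Vale.Agent.P061.Apex

variable {V E Φ : Type}

theorem two_cases (a : ZMod 2) : a = 0 ∨ a = 1 := by revert a; decide

theorem two_add_self (a : ZMod 2) : a + a = 0 := by revert a; decide

theorem two_ne {a b : ZMod 2} (h : a ≠ b) : a + b = 1 := by revert a b; decide

theorem two_eq {a b : ZMod 2} (h : a + b = 0) : a = b := by revert a b; decide

/-- The boundary of an edge chain. -/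
noncomputable def bd [Fintype E] [DecidableEq V] (ends : E → V × V) :
    (E → ZMod 2) →ₗ[ZMod 2] (V → ZMod 2) where
  toFun z v := ∑ e, z e * ((if (ends e).1 = v then 1 else 0) + (if (ends e).2 = v then 1 else 0))
  map_add' z w := by ext v; simp [add_mul, Finset.sum_add_distrib]
  map_smul' c z := by ext v; simp [Finset.mul_sum, mul_assoc]

theorem sum_mul_bd [Fintype E] [Fintype V] [DecidableEq V] (ends : E → V × V) (χ : V → ZMod 2)
    (z : E → ZMod 2) :
    ∑ v, χ v * bd ends z v = ∑ e, z e * (χ (ends e).1 + χ (ends e).2) := by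
  simp only [bd, LinearMap.coe_mk, AddHom.coe_mk, Finset.mul_sum]
  rw [Finset.sum_comm]
  refine Finset.sum_congr rfl fun e _ => ?_
  simp only [mul_left_comm (χ _) (z e), ← Finset.mul_sum, mul_add, Finset.sum_add_distrib]
  congr 1 <;> simp [mul_ite]

/-- Chains supported on `Y`. -/
def suppOn (Y : Set E) : Submodule (ZMod 2) (E → ZMod 2) where
  carrier := {z | ∀ e, e ∉ Y → z e = 0}
  add_mem' {a b} ha hb e he := by simp [ha e he, hb e he]
  zero_mem' e _ := rfl
  smul_mem' c z hz e he := by simp [hz e he]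

theorem mem_suppOn {Y : Set E} {z : E → ZMod 2} : z ∈ suppOn Y ↔ ∀ e, e ∉ Y → z e = 0 := Iff.rfl

open Classical in
/-- The face cut of a face colouring, on `H`. -/
noncomputable def fcut (φ : E → Φ × Φ) (H : Set E) : (Φ → ZMod 2) →ₗ[ZMod 2] (E → ZMod 2) where
  toFun r e := if e ∈ H then r (φ e).1 + r (φ e).2 else 0
  map_add' r s := by ext e; by_cases h : e ∈ H <;> simp [h, add_add_add_comm]
  map_smul' c r := by ext e; by_cases h : e ∈ H <;> simp [h, mul_add]

theorem fcut_of_mem {φ : E → Φ × Φ} {H : Set E} {e : E} (he : e ∈ H) (r : Φ → ZMod 2) :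
    fcut φ H r e = r (φ e).1 + r (φ e).2 := by simp [fcut, he]

theorem fcut_of_notMem {φ : E → Φ × Φ} {H : Set E} {e : E} (he : e ∉ H) (r : Φ → ZMod 2) :
    fcut φ H r e = 0 := by simp [fcut, he]

/-- A face structure in linear form. -/
structure Faces [Fintype E] [DecidableEq V] (ends : E → V × V) (H : Set E) (Φ : Type) (g : ℕ) where
  /-- the two faces of an edge -/
  φ : E → Φ × Φ
  bd_fcut : ∀ r, bd ends (fcut φ H r) = 0
  dim : Module.finrank (ZMod 2) ↥(suppOn H ⊓ LinearMap.ker (bd ends)) ≤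
    g + Module.finrank (ZMod 2) ↥(LinearMap.range (fcut φ H))

open Classical in
/-- The chain of an edge set. -/
noncomputable def chain (Z : Set E) : E → ZMod 2 := fun e => if e ∈ Z then 1 else 0

theorem chain_injective : Function.Injective (chain : Set E → E → ZMod 2) := by
  intro Z W h
  ext e
  have := congrFun h e
  by_cases h1 : e ∈ Z <;> by_cases h2 : e ∈ W <;> simp_all [chain]

theorem chain_surjective (z : E → ZMod 2) : chain {e | z e = 1} = z := by
  ext e
  rcases two_cases (z e) with h | h <;> simp [chain, h]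

theorem bd_chain [Fintype E] [DecidableEq V] (ends : E → V × V) (Z : Set E) (v : V) :
    bd ends (chain Z) v =
      (({e ∈ Z | (ends e).1 = v}.ncard + {e ∈ Z | (ends e).2 = v}.ncard : ℕ) : ZMod 2) := by
  classical
  have h : ∀ f : E → V, ∑ e, chain Z e * (if f e = v then (1 : ZMod 2) else 0) =
      (({e ∈ Z | f e = v}.ncard : ℕ) : ZMod 2) := by
    intro f
    rw [Set.ncard_eq_toFinset_card',
      show {e ∈ Z | f e = v}.toFinset = Finset.univ.filter fun e => e ∈ Z ∧ f e = v by
        ext e; simp, ← Finset.sum_boole]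
    refine Finset.sum_congr rfl fun e _ => ?_
    by_cases h1 : e ∈ Z <;> by_cases h2 : f e = v <;> simp [chain, h1, h2]
  simp only [bd, LinearMap.coe_mk, AddHom.coe_mk, mul_add, Finset.sum_add_distrib, h, Nat.cast_add]

theorem evenSet_iff [Fintype E] [DecidableEq V] {ends : E → V × V} {Z : Set E} :
    EvenSet ends Z ↔ bd ends (chain Z) = 0 := by
  rw [funext_iff]
  refine forall_congr' fun v => ?_
  rw [bd_chain, Pi.zero_apply, ZMod.natCast_eq_zero_iff_even]

theorem chain_faceCut (φ : E → Φ × Φ) (H : Set E) (R : Set Φ) :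
    chain (faceCut φ H R) = fcut φ H (chain R) := by
  ext e
  by_cases h : e ∈ H
  · rw [fcut_of_mem h]
    by_cases h1 : (φ e).1 ∈ R <;> by_cases h2 : (φ e).2 ∈ R <;>
      simp [chain, faceCut, h, h1, h2, two_add_self]
  · simp [chain, faceCut, fcut, h]

theorem exists_faces [Fintype E] [DecidableEq V] {ends : E → V × V} {H : Set E} {g : ℕ}
    (h : EulerGenusAtMost ends H g) :
    ∃ (Φ : Type) (_ : Fintype Φ), Nonempty (Faces ends H Φ g) := by
  classical
  obtain ⟨Φ, _, φ, heven, hcard⟩ := h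
  refine ⟨Φ, ‹_›, ⟨⟨φ, fun r => ?_, ?_⟩⟩⟩
  · rw [← chain_surjective r, ← chain_faceCut]
    exact evenSet_iff.1 (heven _)
  set K := suppOn H ⊓ LinearMap.ker (bd ends)
  have h1 : Nat.card K = {Z : Set E | Z ⊆ H ∧ EvenSet ends Z}.ncard := by
    rw [← Set.ncard_image_of_injective _ chain_injective, ← Nat.card_coe_set_eq]
    refine Nat.card_congr (Equiv.setCongr ?_)
    ext z
    simp only [K, Submodule.coe_inf, Set.mem_inter_iff, SetLike.mem_coe, mem_suppOn,
      LinearMap.mem_ker, Set.mem_image, Set.mem_ofPred_eq]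
    constructor
    · rintro ⟨hz, hz'⟩
      refine ⟨{e | z e = 1}, ⟨fun e he => ?_, ?_⟩, chain_surjective z⟩
      · by_contra hH
        simp [hz e hH] at he
      · rwa [evenSet_iff, chain_surjective]
    · rintro ⟨Z, ⟨hZ, hZ'⟩, rfl⟩
      exact ⟨fun e he => if_neg fun h => he (hZ h), evenSet_iff.1 hZ'⟩
  have h2 : Nat.card (LinearMap.range (fcut φ H)) =
      {Z : Set E | ∃ R : Set Φ, Z = faceCut φ H R}.ncard := by
    rw [← Set.ncard_image_of_injective _ chain_injective, ← Nat.card_coe_set_eq]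
    refine Nat.card_congr (Equiv.setCongr ?_)
    ext z
    simp only [LinearMap.coe_range, Set.mem_range, Set.mem_image, Set.mem_ofPred_eq]
    constructor
    · rintro ⟨r, rfl⟩
      exact ⟨_, ⟨_, rfl⟩, by rw [chain_faceCut, chain_surjective]⟩
    · rintro ⟨Z, ⟨R, rfl⟩, rfl⟩
      exact ⟨_, (chain_faceCut φ H R).symm⟩
  have h3 := Module.natCard_eq_pow_finrank (K := ZMod 2) (V := K)
  have h4 := Module.natCard_eq_pow_finrank (K := ZMod 2) (V := LinearMap.range (fcut φ H))
  rw [Nat.card_zmod] at h3 h4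
  rw [← h1, ← h2, h3, h4, ← pow_add] at hcard
  exact (Nat.pow_le_pow_iff_right Nat.one_lt_two).1 hcard

end Vale.Agent.P061.Apex
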