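import Vale.Agent.P061.Apex.Parents

/-!
P061 surfaces plus apices: thin spanning trees.
-/

open Finset Vale.Agent.P061.Treewidth

namespace Vale.Agent.P061.Apex

variable {V E Φ : Type} [Fintype V] [Fintype E] [DecidableEq V] [DecidableEq E] [Fintype Φ]
  {ends : E → V × V} {A : Finset V} {g D β θ : ℕ} {s : St V E}
  {fc : Faces ends (awayEdges ends ↑A) Φ g}

theorem Same.mono' {K K' : Set E} (h : K ⊆ K') {x y : V} (hxy : Same ends K x y) :
    Same ends K' x y := by
  induction hxy with
  | rel a b hab =>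
    obtain ⟨e, he, he'⟩ := hab
    exact same_of_adj ⟨e, h he, he'⟩
  | refl => exact Same.refl _
  | symm _ _ _ ih => exact ih.symm
  | trans _ _ _ _ _ ih ih' => exact ih.trans ih'

/-- Few extra edges join everything to one apex. -/
theorem exists_connectors {k : ℕ} (hk : 1 ≤ k) (hc : EdgeConnected ends k) {a0 : V} (ha0 : a0 ∈ A)
    {U : Finset E} (hU : ∀ v, ∃ a ∈ A, Same ends (↑U : Set E) v a) :
    ∃ C0 : Finset E, C0.card ≤ A.card ∧ ∀ v, Same ends (↑(U ∪ C0) : Set E) v a0 := by
  classical
  suffices key : ∀ n, ∀ B : Finset V, B ⊆ A → a0 ∈ B → A.card ≤ B.card + n →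
      ∀ C : Finset E, C.card ≤ B.card → (∀ b ∈ B, Same ends (↑(U ∪ C) : Set E) b a0) →
      ∃ C0 : Finset E, C0.card ≤ A.card ∧ ∀ v, Same ends (↑(U ∪ C0) : Set E) v a0 by
    exact key A.card {a0} (by simpa using ha0) (by simp) (Nat.le_add_left _ _) ∅ (by simp)
      (fun b hb => by rw [Finset.mem_singleton.1 hb]; exact Same.refl _)
  intro n
  induction n with
  | zero =>
    intro B hB _ hn C hC hB'
    have : B = A := Finset.eq_of_subset_of_card_le hB (by omega)
    subst this
    refine ⟨C, hC, fun v => ?_⟩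
    obtain ⟨a, ha, hs⟩ := hU v
    exact (Same.mono' (by simp) hs).trans (hB' a ha)
  | succ n ih =>
    intro B hB ha hn C hC hB'
    by_cases hBA : B = A
    · subst hBA
      refine ⟨C, hC, fun v => ?_⟩
      obtain ⟨a, ha, hs⟩ := hU v
      exact (Same.mono' (by simp) hs).trans (hB' a ha)
    set S : Set V := {v | Same ends (↑(U ∪ C) : Set E) v a0}
    by_cases hS : S = Set.univ
    · exact ⟨C, hC.trans (Finset.card_le_card hB), fun v => Set.eq_univ_iff_forall.1 hS v⟩
    have h1 := hc S ⟨a0, Same.refl _⟩ hS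
    obtain ⟨e, -, he⟩ := Set.nonempty_of_ncard_ne_zero
      (show (cutEdges ends Finset.univ S).ncard ≠ 0 by omega)
    obtain ⟨v, hv, hvn, w, hw, hwS⟩ : ∃ v, (v = (ends e).1 ∨ v = (ends e).2) ∧ v ∉ S ∧
        ∃ w, Adj2 ends ({e} : Set E) v w ∧ w ∈ S := by
      by_cases h1 : (ends e).1 ∈ S
      · exact ⟨_, .inr rfl, he.1 h1, _, ⟨e, rfl, .inr rfl⟩, h1⟩
      · refine ⟨_, .inl rfl, h1, (ends e).2, ⟨e, rfl, .inl rfl⟩, ?_⟩
        by_contra h2
        exact h1 (he.2 h2)
    obtain ⟨b, hb, hvb⟩ := hU v
    have hbB : b ∉ B := fun hbB => hvn ((Same.mono' (by simp) hvb).trans (hB' b hbB))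
    have hsub : (↑(U ∪ C) : Set E) ⊆ ↑(U ∪ insert e C) := by
      intro x; simp only [Finset.coe_union, Finset.coe_insert, Set.mem_union, Set.mem_insert_iff]
      tauto
    refine ih (insert b B) (Finset.insert_subset hb hB) (Finset.mem_insert_of_mem ha)
      (by rw [Finset.card_insert_of_notMem hbB]; omega) (insert e C)
      ((Finset.card_insert_le _ _).trans (by rw [Finset.card_insert_of_notMem hbB]; omega)) ?_
    intro x hx
    rcases Finset.mem_insert.1 hx with rfl | hx
    · refine ((Same.mono' ((Finset.coe_subset.2 Finset.subset_union_left)) hvb).symm).trans ?_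
      refine ((same_of_adj hw).mono' ?_).trans (Same.mono' hsub hwS)
      simp
    · exact Same.mono' hsub (hB' x hx)

theorem same_of_edge {K : Set E} {e : E} (he : e ∈ K) {P Q : V → Prop} (h : Link ends e P Q) :
    ∃ p w, P p ∧ Q w ∧ Same ends K p w := by
  rcases h with ⟨a, b⟩ | ⟨a, b⟩
  · exact ⟨_, _, a, b, same_of_adj (adj2_self he)⟩
  · exact ⟨_, _, a, b, (same_of_adj (adj2_self he)).symm⟩

/-- Parent edges lead every vertex to its apex. -/
theorem same_lab (h : Inv ends A fc.φ D β θ s) (hall : ∀ v, v ∉ A → 0 < s.tm v)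
    (P : Parent ends A s) (v : V) (hv : v ∉ A) :
    Same ends (↑(s.F ∪ (s.names A).image P.pe) : Set E) v (s.lab v) := by
  classical
  induction hm : (univ : Finset V).sup s.tm - s.tm v using Nat.strong_induction_on generalizing v with
  | _ m ih =>
  subst hm
  have hU := names_mem (s := s) hv
  have hmem : P.pe (s.cl v) ∈ (↑(s.F ∪ (s.names A).image P.pe) : Set E) := by
    simp only [Finset.coe_union, Finset.coe_image]
    exact .inr ⟨_, hU, rfl⟩
  obtain ⟨ht, hl⟩ := rep_cl h hall hv
  obtain ⟨p, w, hp, hw, hpw⟩ := same_of_edge hmem (P.edge _ hU)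
  have hvp : Same ends (↑(s.F ∪ (s.names A).image P.pe) : Set E) v p :=
    Same.mono' (by simp) (h.linked v p hp.symm)
  rcases hw with ⟨-, hw⟩ | ⟨-, hwA, hlt, hlab⟩
  · rw [hw, hl] at hpw
    exact hvp.trans hpw
  · rw [ht] at hlt
    rw [hl] at hlab
    have hsup : s.tm w ≤ (univ : Finset V).sup s.tm := Finset.le_sup (Finset.mem_univ w)
    have := ih _ (by omega) w hwA rfl
    rw [hlab] at this
    exact hvp.trans (hpw.trans this)

open Classical in
/-- The clusters with a vertex on the other side than their apex. -/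
noncomputable def bad (s : St V E) (A : Finset V) (S : Set V) : Finset V :=
  (s.names A).filter fun U => ∃ v, v ∉ A ∧ s.cl v = U ∧ ¬ (v ∈ S ↔ s.lab v ∈ S)

/-- Few clusters are bad. -/
theorem bad_le (h : Inv ends A fc.φ D β θ s) (hall : ∀ v, v ∉ A → 0 < s.tm v) (hβ : β ≤ θ)
    (S : Set V) :
    (θ - β) * (bad s A S).card
      ≤ (cutEdges ends Finset.univ S).ncard + θ * (s.F ∩ crossH ends A S).card := by
  classical
  set cut := (univ : Finset E).filter fun e => (ends e).1 ∈ S ↔ (ends e).2 ∉ S with hcut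
  have hcard : (cutEdges ends Finset.univ S).ncard = cut.card := by
    rw [← Set.ncard_coe_finset]; congr 1; ext e; simp [cutEdges, hcut]
  set sp := (bad s A S).filter fun U =>
    ∃ v, v ∉ A ∧ s.cl v = U ∧ (v ∈ S ↔ s.lab v ∈ S) with hsp
  set W := bad s A S \ sp with hW
  have hsplit : sp.card ≤ (s.F ∩ crossH ends A S).card := by
    refine le_trans (Finset.card_le_card ?_)
      (Finset.card_image_le (f := fun e => s.cl (ends e).1))
    intro U hU
    obtain ⟨hUb, u, huA, huU, hu⟩ := Finset.mem_filter.1 hU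
    obtain ⟨v, hvA, hvU, hv⟩ := (Finset.mem_filter.1 hUb).2
    have hlab := h.lab_eq u v huA hvA (hall v hvA) (huU.trans hvU.symm)
    by_contra hno
    have hsame : (fun x => (decide (x ∈ S) && decide (s.cl x = U))) u
        = (fun x => (decide (x ∈ S) && decide (s.cl x = U))) v := by
      refine same_const (φ := ends) (K := (↑s.F : Set E))
        (fun x => (decide (x ∈ S) && decide (s.cl x = U))) (fun e he => ?_)
        (h.linked u v (huU.trans hvU.symm))
      have hin := h.inside e (h.sub he)
      by_cases hc : s.cl (ends e).1 = U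
      · have hnc : ¬ ((ends e).1 ∈ S ↔ (ends e).2 ∉ S) := fun hx => hno
          (Finset.mem_image.2 ⟨e, Finset.mem_inter.2 ⟨he, Finset.mem_filter.2
            ⟨Finset.mem_univ _, h.away e (h.sub he), hx⟩⟩, hc⟩)
        rw [hc] at hin
        simp only [hc, ← hin, decide_true, Bool.and_true, decide_eq_decide]
        tauto
      · simp [hc, ← hin]
    simp only [huU, hvU, decide_true, Bool.and_true, decide_eq_decide] at hsame
    rw [hlab] at hu
    exact hv (hsame.symm.trans hu)
  have hdis : (W : Set V).PairwiseDisjoint fun U => s.toward ends A (s.rep A U) := by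
    intro U hU U' hU' hne
    have h1 := rep_spec (Finset.mem_filter.1 (Finset.mem_sdiff.1 hU).1).1
    have h2 := rep_spec (Finset.mem_filter.1 (Finset.mem_sdiff.1 hU').1).1
    exact toward_disjoint h hall h1.1 h2.1 (by rw [h1.2, h2.2]; exact hne)
  have hsub : (W.biUnion fun U => s.toward ends A (s.rep A U)) ⊆
      cut ∪ (bad s A S).biUnion fun U => s.later ends A (s.rep A U) := by
    intro e he
    obtain ⟨U, hU, he⟩ := Finset.mem_biUnion.1 he
    obtain ⟨hUb, hUs⟩ := Finset.mem_sdiff.1 hU
    obtain ⟨hrA, hrc⟩ := rep_spec (Finset.mem_filter.1 hUb).1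
    have hwrong : ∀ p, s.cl p = U → p ∉ A → ¬ (p ∈ S ↔ s.lab p ∈ S) := fun p hp hpA hpp =>
      hUs (Finset.mem_filter.2 ⟨hUb, p, hpA, hp, hpp⟩)
    have hcutmem : ∀ p w, ((p = (ends e).1 ∧ w = (ends e).2) ∨ (p = (ends e).2 ∧ w = (ends e).1)) →
        ¬ (p ∈ S ↔ w ∈ S) → e ∈ cut := by
      intro p w hpw hne
      refine Finset.mem_filter.2 ⟨Finset.mem_univ _, ?_⟩
      rcases hpw with ⟨rfl, rfl⟩ | ⟨rfl, rfl⟩ <;> tauto
    rcases toward_split h hrA he with ⟨p, hp, hpA, hpe⟩ | ⟨p, w, hp, hpA, hw, -, hlab, hpe, hlat⟩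
    · have hl := h.lab_eq p (s.rep A U) hpA hrA (hall _ hrA) hp
      refine Finset.mem_union_left _ (hcutmem p (s.lab (s.rep A U)) hpe ?_)
      rw [← hl]
      exact hwrong p (hp.trans hrc) hpA
    · have hl := h.lab_eq p (s.rep A U) hpA hrA (hall _ hrA) hp
      by_cases hsame : p ∈ S ↔ w ∈ S
      · refine Finset.mem_union_right _ (Finset.mem_biUnion.2 ⟨s.cl w,
          Finset.mem_filter.2 ⟨names_mem hw, w, hw, rfl, ?_⟩, ?_⟩)
        · rw [hlab, ← hl, ← hsame]
          exact hwrong p (hp.trans hrc) hpA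
        · rw [later_congr h (rep_spec (names_mem hw)).2]
          exact hlat
      · exact Finset.mem_union_left _ (hcutmem p w hpe hsame)
  have h1 : W.card * θ ≤ (W.biUnion fun U => s.toward ends A (s.rep A U)).card := by
    rw [Finset.card_biUnion hdis, ← smul_eq_mul]
    refine Finset.card_nsmul_le_sum _ _ _ fun U hU => ?_
    have := rep_spec (Finset.mem_filter.1 (Finset.mem_sdiff.1 hU).1).1
    exact h.toward_le _ this.1 (hall _ this.1)
  have h2 : ((bad s A S).biUnion fun U => s.later ends A (s.rep A U)).card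
      ≤ (bad s A S).card * β := by
    refine Finset.card_biUnion_le.trans ?_
    rw [← smul_eq_mul]
    refine Finset.sum_le_card_nsmul _ _ _ fun U hU => ?_
    have := rep_spec (Finset.mem_filter.1 hU).1
    exact (h.later_lt _ this.1 (hall _ this.1)).le
  have h3 := h1.trans ((Finset.card_le_card hsub).trans
    ((Finset.card_union_le _ _).trans (Nat.add_le_add_left h2 _)))
  have h4 : W.card + sp.card = (bad s A S).card :=
    Finset.card_sdiff_add_card_eq_card (Finset.filter_subset _ _)
  obtain ⟨d, rfl⟩ := Nat.exists_eq_add_of_le hβ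
  rw [Nat.add_sub_cancel_left, hcard]
  calc d * (bad s A S).card = d * W.card + d * sp.card := by rw [← h4, Nat.mul_add]
    _ ≤ cut.card + (β + d) * (s.F ∩ crossH ends A S).card := by
        have h5 : sp.card * β + d * sp.card ≤ (β + d) * (s.F ∩ crossH ends A S).card := by
          rw [Nat.mul_comm sp.card β, ← Nat.add_mul]
          exact Nat.mul_le_mul_left _ hsplit
        rw [← h4] at h3
        nlinarith

/-- Few parent edges cross. -/
theorem parent_cut_le (h : Inv ends A fc.φ D β θ s) (hall : ∀ v, v ∉ A → 0 < s.tm v)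
    (P : Parent ends A s) (S : Set V) :
    (cutEdges ends ((s.names A).image P.pe) S).ncard ≤ 2 * (bad s A S).card := by
  classical
  set X := (s.names A).filter fun U => ∃ W ∈ bad s A S, P.par U = some W with hX
  have hXc : X.card ≤ (bad s A S).card := by
    have himg : (X.image P.par).card = X.card := by
      refine Finset.card_image_of_injOn fun U hU U' hU' heq => ?_
      obtain ⟨hUn, W, -, hW⟩ := Finset.mem_filter.1 hU
      exact P.inj U hUn U' (Finset.mem_filter.1 hU').1 (by rw [hW]; simp) heq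
    rw [← himg]
    refine (Finset.card_le_card (t := (bad s A S).image some) ?_).trans Finset.card_image_le
    intro o ho
    obtain ⟨U, hU, rfl⟩ := Finset.mem_image.1 ho
    obtain ⟨-, W, hWb, hW⟩ := Finset.mem_filter.1 hU
    exact Finset.mem_image.2 ⟨W, hWb, hW.symm⟩
  have hsub : cutEdges ends ((s.names A).image P.pe) S ⊆ ↑((bad s A S ∪ X).image P.pe) := by
    rintro e ⟨he, hcr⟩
    obtain ⟨U, hU, rfl⟩ := Finset.mem_image.1 he
    refine Finset.mem_image.2 ⟨U, ?_, rfl⟩
    by_cases hUb : U ∈ bad s A S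
    · exact Finset.mem_union_left _ hUb
    refine Finset.mem_union_right _ (Finset.mem_filter.2 ⟨hU, ?_⟩)
    obtain ⟨hrA, hrc⟩ := rep_spec hU
    have hcase : ∀ p w, s.cl p = U → ¬ (p ∈ S ↔ w ∈ S) →
        ((P.par U = none ∧ w = s.lab (s.rep A U)) ∨ (P.par U = some (s.cl w) ∧ w ∉ A ∧
          s.tm (s.rep A U) < s.tm w ∧ s.lab w = s.lab (s.rep A U))) →
        ∃ W ∈ bad s A S, P.par U = some W := by
      intro p w hp hne hw
      have hpA : p ∉ A := fun hpA => hrA (h.apex p hpA _ (hrc.trans hp.symm) ▸ hpA)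
      have hgood : p ∈ S ↔ s.lab p ∈ S := by
        by_contra hh
        exact hUb (Finset.mem_filter.2 ⟨hU, p, hpA, hp, hh⟩)
      have hl := h.lab_eq p (s.rep A U) hpA hrA (hall _ hrA) (hp.trans hrc.symm)
      rw [hl] at hgood
      rcases hw with ⟨-, rfl⟩ | ⟨hpar, hwA, -, hlab⟩
      · exact absurd hgood hne
      · refine ⟨_, Finset.mem_filter.2 ⟨names_mem hwA, w, hwA, rfl, ?_⟩, hpar⟩
        rw [hlab]
        tauto
    rcases P.edge U hU with ⟨hp, hw⟩ | ⟨hp, hw⟩
    · exact hcase _ _ hp (by tauto) hw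
    · exact hcase _ _ hp (by tauto) hw
  refine (Set.ncard_le_ncard hsub (Finset.finite_toSet _)).trans ?_
  rw [Set.ncard_coe_finset]
  have := Finset.card_image_le (s := bad s A S ∪ X) (f := P.pe)
  have := Finset.card_union_le (bad s A S) X
  omega

/-- A connected thin edge set. -/
theorem exists_thin_set {k q : ℕ} (hq : 1 ≤ q) (hc : EdgeConnected ends k) (hE : Nonempty E)
    (hqk : 200 * (A.card + 1) * (g + 1) * q ≤ k)
    (fc : Faces ends (awayEdges ends ↑A) Φ g) :
    ∃ U : Finset E, (∀ u v, Same ends (↑U : Set E) u v) ∧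
      ∀ S : Set V, q * (cutEdges ends U S).ncard ≤ 4 * (cutEdges ends Finset.univ S).ncard := by
  classical
  set G := g + 1 with hG
  have hG1 : 1 ≤ G := by omega
  have hqG : 1 ≤ q * G := Nat.one_le_iff_ne_zero.2 (Nat.mul_ne_zero (by omega) (by omega))
  have hbase : 200 * (A.card * (q * G)) + 200 * (q * G) ≤ k := by
    refine le_trans (le_of_eq ?_) hqk; ring
  have hk : 1 ≤ k := by omega
  have hp : Params A g k (2 * q) (49 * (q * G)) (150 * (q * G)) := by
    refine ⟨by omega, by omega, ?_, fun n hn => ?_⟩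
    · have : A.card * (150 * (q * G)) = 150 * (A.card * (q * G)) := by ring
      omega
    · have h1 : n + g ≤ G * n := by rw [hG]; nlinarith
      calc (2 * (2 * q) + 1 + 1) * (6 * (n + g)) ≤ (6 * q) * (6 * (G * n)) :=
            Nat.mul_le_mul (by omega) (by omega)
        _ < 49 * (q * G) * n := by
            have : 1 ≤ q * G * n := Nat.one_le_iff_ne_zero.2
              (Nat.mul_ne_zero (by omega) (by omega))
            nlinarith
  obtain ⟨s, h, hal, hallA⟩ := exists_state hc hp fc
  have hF : ∀ S : Set V,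
      2 * q * (s.F ∩ crossH ends A S).card ≤ (cutEdges ends Finset.univ S).ncard := fun S => by
    refine (forest_thin h hal le_rfl S).trans ?_
    rw [← Set.ncard_coe_finset]
    refine Set.ncard_le_ncard (fun e he => ?_) (Set.toFinite _)
    simp only [crossH, Finset.coe_filter, Finset.mem_univ, true_and] at he
    exact ⟨Finset.mem_univ _, he.2⟩
  have hFeq : ∀ S : Set V, (cutEdges ends s.F S).ncard = (s.F ∩ crossH ends A S).card := fun S => by
    rw [← Set.ncard_coe_finset]
    congr 1
    ext e
    simp only [cutEdges, crossH, Finset.coe_inter, Finset.coe_filter, Finset.mem_univ, true_and,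
      Set.mem_inter_iff, Finset.mem_coe, Set.mem_ofPred_eq]
    constructor
    · exact fun ⟨a, b⟩ => ⟨a, h.away e (h.sub a), b⟩
    · exact fun ⟨a, _, b⟩ => ⟨a, b⟩
  rcases A.eq_empty_or_nonempty with hA | ⟨a0, ha0⟩
  · have htm : ∀ w, s.tm w = 0 := fun w => Nat.eq_zero_of_not_pos fun hw => by
      simpa [hA] using h.lab_mem w (by simp [hA]) hw
    have hone : ∀ u v, s.cl u = s.cl v := by
      intro u v
      by_contra hne
      have h1 := hc {w | s.cl w = s.cl u} ⟨u, rfl⟩ fun hu =>
        hne ((Set.eq_univ_iff_forall.1 hu v :)).symm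
      obtain ⟨e, -, he⟩ := Set.nonempty_of_ncard_ne_zero
        (show (cutEdges ends Finset.univ {w | s.cl w = s.cl u}).ncard ≠ 0 by omega)
      have : e ∈ s.alive ends A := by
        rw [s.mem_alive]
        refine ⟨by simp [awayEdges, hA], htm _, htm _, fun hh => ?_⟩
        change (s.cl (ends e).1 = s.cl u ↔ ¬ s.cl (ends e).2 = s.cl u) at he
        rw [hh] at he
        exact iff_not_self he
      simp [hal] at this
    refine ⟨s.F, fun u v => h.linked u v (hone u v), fun S => ?_⟩
    rw [hFeq]
    have := hF S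
    have : q * (s.F ∩ crossH ends A S).card ≤ 2 * q * (s.F ∩ crossH ends A S).card := by
      rw [Nat.mul_assoc, Nat.two_mul]; exact Nat.le_add_right _ _
    omega
  have hall : ∀ v, v ∉ A → 0 < s.tm v := hallA ⟨a0, ha0⟩
  obtain ⟨P⟩ := exists_parent h hall (by omega) (by omega)
  obtain ⟨C0, hC0, hconn⟩ := exists_connectors (U := s.F ∪ (s.names A).image P.pe) hk hc ha0
    (fun v => by
      by_cases hv : v ∈ A
      · exact ⟨v, hv, Same.refl _⟩
      · exact ⟨s.lab v, h.lab_mem v hv (hall v hv), same_lab h hall P v hv⟩)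
  refine ⟨s.F ∪ (s.names A).image P.pe ∪ C0, fun u v => (hconn u).trans (hconn v).symm, fun S => ?_⟩
  by_cases hS : S.Nonempty ∧ S ≠ Set.univ
  swap
  · have : cutEdges ends (s.F ∪ (s.names A).image P.pe ∪ C0) S = ∅ := by
      ext e
      simp only [cutEdges, Set.mem_ofPred_eq, Set.mem_empty_iff_false, iff_false, not_and]
      intro _
      rcases S.eq_empty_or_nonempty with rfl | hne
      · simp
      · rw [not_and] at hS
        simp [not_not.1 (hS hne)]
    rw [this]; simp
  have hcutk := hc S hS.1 hS.2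
  set c := (cutEdges ends Finset.univ S).ncard
  have hsum : (cutEdges ends (s.F ∪ (s.names A).image P.pe ∪ C0) S).ncard ≤
      (cutEdges ends s.F S).ncard + (cutEdges ends ((s.names A).image P.pe) S).ncard + C0.card := by
    have hsub : cutEdges ends (s.F ∪ (s.names A).image P.pe ∪ C0) S ⊆
        cutEdges ends s.F S ∪ cutEdges ends ((s.names A).image P.pe) S ∪ ↑C0 := by
      rintro e ⟨he, hcr⟩
      simp only [Finset.mem_union] at he
      rcases he with (he | he) | he
      exacts [.inl (.inl ⟨he, hcr⟩), .inl (.inr ⟨he, hcr⟩), .inr he]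
    refine (Set.ncard_le_ncard hsub (Set.toFinite _)).trans ((Set.ncard_union_le _ _).trans ?_)
    rw [Set.ncard_coe_finset]
    exact Nat.add_le_add_right (Set.ncard_union_le _ _) _
  have hb := bad_le h hall (by omega) S
  have hpc := parent_cut_le h hall P S
  have hf := hF S
  rw [hFeq] at hsum
  set f := (s.F ∩ crossH ends A S).card
  set b := (bad s A S).card
  rw [show 150 * (q * G) - 49 * (q * G) = 101 * (q * G) by omega] at hb
  have hb' : q * b ≤ c := by
    have e1 : 150 * (q * G) * f = 75 * G * (2 * q * f) := by ring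
    have e2 : 75 * G * (2 * q * f) ≤ 75 * G * c := Nat.mul_le_mul_left _ hf
    have e3 : 101 * G * (q * b) ≤ 101 * G * c := by
      have : c ≤ G * c := Nat.le_mul_of_pos_left _ (by omega)
      have e4 : 101 * (q * G) * b = 101 * G * (q * b) := by ring
      have e5 : 75 * G * c = 75 * (G * c) := by ring
      have e6 : 101 * G * c = 101 * (G * c) := by ring
      omega
    exact Nat.le_of_mul_le_mul_left e3 (by omega)
  have ht : q * C0.card ≤ c := by
    have h1 : q * C0.card ≤ A.card * (q * G) := by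
      calc q * C0.card ≤ q * A.card := Nat.mul_le_mul_left _ hC0
        _ = A.card * q := Nat.mul_comm _ _
        _ ≤ A.card * (q * G) := Nat.mul_le_mul_left _ (Nat.le_mul_of_pos_right _ (by omega))
    omega
  have h2 := Nat.mul_le_mul_left q (hsum.trans (Nat.add_le_add_right (Nat.add_le_add_left hpc _) _))
  have e7 : q * (f + 2 * b + C0.card) = q * f + 2 * (q * b) + q * C0.card := by ring
  have e8 : 2 * q * f = 2 * (q * f) := by ring
  omega

/-- Thin trees for a surface plus apices, with an explicit constant. -/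
theorem thin_tree (V E : Type) [Fintype V] [Fintype E] (ends : E → V × V) (k g t : ℕ)
    (A : Finset V) (hV : Nonempty V) (hA : A.card ≤ t)
    (hg : EulerGenusAtMost ends (awayEdges ends ↑A) g) (hk : 1 ≤ k)
    (hc : EdgeConnected ends k) :
    ∃ T : Finset E, IsSpanningTree ends T ∧ ∀ S : Set V,
      k * (cutEdges ends T S).ncard
        ≤ 1600 * (t + 1) * (g + 1) * (cutEdges ends Finset.univ S).ncard := by
  classical
  set M := 200 * (t + 1) * (g + 1) with hM
  have hM' : 1600 * (t + 1) * (g + 1) = 8 * M := by rw [hM]; ring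
  rw [hM']
  have hMpos : 0 < M := by positivity
  by_cases hq : M ≤ k ∧ Nonempty E
  · obtain ⟨hMk, hE⟩ := hq
    obtain ⟨Φ, _, ⟨fc⟩⟩ := exists_faces hg
    set q := k / M with hqd
    have hq1 : 1 ≤ q := (Nat.one_le_div_iff hMpos).2 hMk
    have hqk : 200 * (A.card + 1) * (g + 1) * q ≤ k := by
      refine le_trans ?_ (Nat.mul_div_le k M)
      rw [← hqd, hM]
      exact Nat.mul_le_mul_right _ (Nat.mul_le_mul_right _ (Nat.mul_le_mul_left _ (by omega)))
    obtain ⟨U, hU, hthin⟩ := exists_thin_set hq1 hc hE hqk fc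
    obtain ⟨T, hTU, hT⟩ := exists_tree U hU
    refine ⟨T, hT, fun S => ?_⟩
    have h1 : (cutEdges ends T S).ncard ≤ (cutEdges ends U S).ncard :=
      Set.ncard_le_ncard (fun e he => ⟨hTU he.1, he.2⟩) (Set.toFinite _)
    have h2 : k ≤ 2 * (M * q) := by
      have h5 := Nat.div_add_mod k M
      have h6 := Nat.mod_lt k hMpos
      have h7 : M ≤ M * q := Nat.le_mul_of_pos_right _ hq1
      rw [← hqd] at h5
      omega
    have h3 := hthin S
    calc k * (cutEdges ends T S).ncard ≤ 2 * (M * q) * (cutEdges ends U S).ncard :=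
          Nat.mul_le_mul h2 h1
      _ = 2 * M * (q * (cutEdges ends U S).ncard) := by ring
      _ ≤ 2 * M * (4 * (cutEdges ends Finset.univ S).ncard) := Nat.mul_le_mul_left _ h3
      _ = 8 * M * (cutEdges ends Finset.univ S).ncard := by ring
  · have hconn : ∀ u v, Same ends (↑(Finset.univ : Finset E) : Set E) u v := by
      intro u v
      by_contra hne
      have h1 := hc {w | Same ends (↑(Finset.univ : Finset E) : Set E) u w} ⟨u, Same.refl _⟩
        fun hu => hne (Set.eq_univ_iff_forall.1 hu v :)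
      obtain ⟨e, -, he⟩ := Set.nonempty_of_ncard_ne_zero
        (show (cutEdges ends Finset.univ
          {w | Same ends (↑(Finset.univ : Finset E) : Set E) u w}).ncard ≠ 0 by omega)
      have had : Same ends (↑(Finset.univ : Finset E) : Set E) (ends e).1 (ends e).2 :=
        same_of_adj (adj2_self (by simp))
      simp only [Set.mem_ofPred_eq] at he
      by_cases h2 : Same ends (↑(Finset.univ : Finset E) : Set E) u (ends e).1
      · exact he.1 h2 (h2.trans had)
      · exact h2 ((Classical.not_not.1 fun h3 => h2 (he.2 h3)).trans had.symm)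
    obtain ⟨T, -, hT⟩ := exists_tree (Finset.univ : Finset E) hconn
    refine ⟨T, hT, fun S => ?_⟩
    by_cases hE : Nonempty E
    · have hkM : k ≤ 8 * M := by
        have : ¬ M ≤ k := fun hh => hq ⟨hh, hE⟩
        omega
      exact Nat.mul_le_mul hkM (Set.ncard_le_ncard (fun e he => ⟨Finset.mem_univ _, he.2⟩)
        (Set.toFinite _))
    · have : cutEdges ends T S = ∅ := by
        ext e; exact absurd ⟨e⟩ hE
      rw [this]; simp

end Vale.Agent.P061.Apex
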