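import Vale.Agent.P061.Apex.Chain

/-!
P061 surfaces plus apices: merging two clusters along a thread.
-/

open Finset

namespace Vale.Agent.P061.Apex

theorem Same.mono {E Φ : Type} {φ : E → Φ × Φ} {K K' : Set E} (h : K ⊆ K') {x y : Φ}
    (hxy : Same φ K x y) : Same φ K' x y :=
  Relation.EqvGen.mono (fun _ _ ⟨e, he, h'⟩ => ⟨e, h he, h'⟩) _ _ hxy

variable {V E Φ : Type} [Fintype V] [Fintype E] [DecidableEq V] [DecidableEq E] [Fintype Φ]
  {ends : E → V × V} {A : Finset V} {g D β θ : ℕ} {s : St V E}
  {fc : Faces ends (awayEdges ends ↑A) Φ g}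

variable (t : Thread s fc (2 * D + 1))

/-- The state after merging along the thread. -/
def Thread.merged : St V E where
  cl v := if s.cl v = s.cl (ends (t.edge D)).2 then s.cl (ends (t.edge D)).1 else s.cl v
  tm := s.tm
  lab := s.lab
  F := insert (t.edge D) s.F
  N := s.N ∪ (Finset.range (2 * D + 1)).image t.edge

open Classical in
/-- A potential given by `f` on the chain and by `o` elsewhere. -/
noncomputable def Thread.pot (f : ℕ → ℕ) (o : Φ → ℕ) (x : Φ) : ℕ :=
  if h : ∃ j, j ≤ 2 * D + 1 ∧ (Quotient.mk _ x : Cls s fc) = icls s fc (t.u j)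
  then f (Nat.find h) else o x

theorem Thread.pot_at (f : ℕ → ℕ) (o : Φ → ℕ) {x : Φ} {j : ℕ} (hj : j ≤ 2 * D + 1)
    (hx : (Quotient.mk _ x : Cls s fc) = icls s fc (t.u j)) : t.pot f o x = f j := by
  classical
  have h : ∃ j, j ≤ 2 * D + 1 ∧ (Quotient.mk _ x : Cls s fc) = icls s fc (t.u j) := ⟨j, hj, hx⟩
  rw [Thread.pot, dif_pos h]
  obtain ⟨h1, h2⟩ := Nat.find_spec h
  rw [t.cls_inj h1 hj (h2.symm.trans hx)]

theorem Thread.pot_same (f : ℕ → ℕ) {o : Φ → ℕ}
    (ho : ∀ x y, Same fc.φ (s.free ends A) x y → o x = o y) {x y : Φ}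
    (h : Same fc.φ (s.free ends A) x y) : t.pot f o x = t.pot f o y := by
  classical
  have he : (Quotient.mk _ x : Cls s fc) = Quotient.mk _ y := Quotient.sound h
  simp only [Thread.pot]
  by_cases hx : ∃ j, j ≤ 2 * D + 1 ∧ (Quotient.mk _ x : Cls s fc) = icls s fc (t.u j)
  · obtain ⟨j, hj, hj'⟩ := hx
    have h1 := t.pot_at f o hj hj'
    have h2 := t.pot_at f o hj (he ▸ hj')
    simp only [Thread.pot] at h1 h2
    rw [h1, h2]
  · rw [dif_neg hx, dif_neg (fun ⟨j, hj, hj'⟩ => hx ⟨j, hj, he.trans hj'⟩), ho x y h]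

theorem Thread.edge_mem {j : ℕ} (hj : j ≤ 2 * D) : t.edge j ∈ t.merged.N :=
  Finset.mem_union_right _ (Finset.mem_image_of_mem _ (Finset.mem_range.2 (by omega)))

theorem Thread.edge_cls {j : ℕ} (hj : j ≤ 2 * D) {i : E × Bool} (hi : i.1 = t.edge j) :
    icls s fc i = icls s fc (t.u (j + 1)) ∨ icls s fc i = icls s fc (t.u j) := by
  by_cases hb : i.2 = (t.u (j + 1)).2
  · exact .inl (congrArg _ (Prod.ext hi hb))
  · refine .inr ?_
    rw [← t.cls_flip (show j ≤ 2 * D + 1 by omega)]
    refine congrArg _ (Prod.ext hi ?_)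
    revert hb; simp [flipEnd]; cases i.2 <;> cases (t.u (j + 1)).2 <;> simp

/-- The faces of an alive edge off the chain avoid the inner chain classes. -/
theorem Thread.outer {e : E} (he : e ∈ s.alive ends A) (hN : e ∉ t.merged.N) (b : Bool) {j : ℕ}
    (hj : j ≤ 2 * D + 1) (hc : icls s fc (e, b) = icls s fc (t.u j)) : j = 0 ∨ j = 2 * D + 1 := by
  by_contra hne
  push Not at hne
  rcases t.end_cases hj (i := (e, b)) he hc with h | h
  · refine hN ?_
    rw [show e = t.edge (j - 1) by
      unfold Thread.edge; rw [Nat.sub_add_cancel (by omega), ← h]]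
    exact t.edge_mem (by omega)
  · refine hN ?_
    rw [show e = t.edge j from congrArg Prod.fst h]
    exact t.edge_mem (by omega)

theorem Thread.pot_outer (f : ℕ → ℕ) {o : Φ → ℕ}
    (ho : ∀ x y, Same fc.φ (s.free ends A) x y → o x = o y)
    (hf0 : f 0 = o (face fc.φ (t.u 0)))
    (hfR : f (2 * D + 1) = o (face fc.φ (t.u (2 * D + 1)))) {e : E} (he : e ∈ s.alive ends A)
    (hN : e ∉ t.merged.N) (b : Bool) :
    t.pot f o (face fc.φ (e, b)) = o (face fc.φ (e, b)) := by
  classical
  rw [Thread.pot]
  split_ifs with h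
  · obtain ⟨h1, h2⟩ := Nat.find_spec h
    have hs : Same fc.φ (s.free ends A) (face fc.φ (e, b)) (face fc.φ (t.u (Nat.find h))) :=
      Quotient.exact h2
    rcases t.outer he hN b h1 h2 with hj | hj <;> rw [hj] at hs ⊢
    · rw [hf0, ho _ _ hs]
    · rw [hfR, ho _ _ hs]
  · rfl

theorem Thread.merged_alive {e : E} :
    e ∈ t.merged.alive ends A ↔ e ∈ s.alive ends A ∧
      t.merged.cl (ends e).1 ≠ t.merged.cl (ends e).2 := by
  rw [t.merged.mem_alive, s.mem_alive]
  refine ⟨fun ⟨h1, h2, h3, h4⟩ => ⟨⟨h1, h2, h3, fun h => h4 ?_⟩, h4⟩,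
    fun ⟨⟨h1, h2, h3, _⟩, h4⟩ => ⟨h1, h2, h3, h4⟩⟩
  simp only [Thread.merged, h]

theorem Thread.inside_chain (h : Inv ends A fc.φ D β θ s) {j : ℕ} (hj : j ≤ 2 * D) (v : V)
    (hv : v = (ends (t.edge j)).1 ∨ v = (ends (t.edge j)).2) :
    s.cl v = s.cl (ends (t.edge D)).1 ∨ s.cl v = s.cl (ends (t.edge D)).2 := by
  have h1 := t.parallel h (j := j) (by omega) (s.cl v)
  have h2 := t.parallel h (j := D) (by omega) (s.cl v)
  have h3 := h2.2 (h1.1 (by rcases hv with rfl | rfl <;> simp))
  exact h3.imp Eq.symm Eq.symm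

theorem Thread.merged_cl_eq {v : V} (hv : s.cl v = s.cl (ends (t.edge D)).1 ∨
    s.cl v = s.cl (ends (t.edge D)).2) : t.merged.cl v = s.cl (ends (t.edge D)).1 := by
  rcases hv with hv | hv <;> simp [Thread.merged, hv]

theorem Thread.not_alive (h : Inv ends A fc.φ D β θ s) {e : E} (he : e ∈ t.merged.alive ends A) :
    e ∉ t.merged.N := by
  intro hN
  obtain ⟨ha, hne⟩ := t.merged_alive.1 he
  rcases Finset.mem_union.1 hN with hN | hN
  · exact (s.mem_alive.1 ha).2.2.2 (h.inside e hN)
  · obtain ⟨j, hj, rfl⟩ := Finset.mem_image.1 hN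
    rw [Finset.mem_range] at hj
    exact hne (by rw [t.merged_cl_eq (t.inside_chain h (by omega) _ (.inl rfl)),
      t.merged_cl_eq (t.inside_chain h (by omega) _ (.inr rfl))])

theorem Thread.free_sub (h : Inv ends A fc.φ D β θ s) :
    s.free ends A ⊆ t.merged.free ends A := by
  rintro e ⟨hH, hN, ha⟩
  refine ⟨hH, fun hN' => ?_, fun ha' => ha (t.merged_alive.1 ha').1⟩
  rcases Finset.mem_union.1 hN' with hN' | hN'
  · exact hN hN'
  · obtain ⟨j, hj, rfl⟩ := Finset.mem_image.1 hN'
    exact ha (t.edge_alive (Finset.mem_range.1 hj))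

theorem Thread.free_le :
    t.merged.free ends A ⊆ s.free ends A ∪ (↑(s.alive ends A) : Set E) := by
  rintro e ⟨hH, hN, -⟩
  by_cases ha : e ∈ s.alive ends A
  · exact .inr ha
  · exact .inl ⟨hH, fun h => hN (Finset.mem_union_left _ h), ha⟩

theorem Thread.costly_le :
    t.merged.costly ⊆ s.costly ∪ (↑(s.alive ends A) : Set E) := by
  rintro e ⟨hN, hF⟩
  rcases Finset.mem_union.1 hN with hN | hN
  · exact .inl ⟨hN, fun h => hF (Finset.mem_insert_of_mem h)⟩
  · obtain ⟨j, hj, rfl⟩ := Finset.mem_image.1 hN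
    exact .inr (t.edge_alive (Finset.mem_range.1 hj))

theorem Thread.inc_le {x : Φ} (hx : Inc fc.φ (↑(t.merged.alive ends A) : Set E) x) :
    Inc fc.φ (↑(s.alive ends A) : Set E) x :=
  let ⟨e, he, h⟩ := hx; ⟨e, (t.merged_alive.1 he).1, h⟩

theorem Thread.inc_pot (h : Inv ends A fc.φ D β θ s) (f : ℕ → ℕ) {o : Φ → ℕ}
    (ho : ∀ x y, Same fc.φ (s.free ends A) x y → o x = o y)
    (hf0 : f 0 = o (face fc.φ (t.u 0)))
    (hfR : f (2 * D + 1) = o (face fc.φ (t.u (2 * D + 1)))) {x : Φ}
    (hx : Inc fc.φ (↑(t.merged.alive ends A) : Set E) x) : t.pot f o x = o x := by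
  obtain ⟨e, he, hb | hb⟩ := hx <;> rw [← hb]
  · exact t.pot_outer f ho hf0 hfR (t.merged_alive.1 he).1 (t.not_alive h he) true
  · exact t.pot_outer f ho hf0 hfR (t.merged_alive.1 he).1 (t.not_alive h he) false

/-- The bound given by a potential after the merge. -/
theorem Thread.bound (h : Inv ends A fc.φ D β θ s) (f : ℕ → ℕ) {o : Φ → ℕ}
    (ho : ∀ x y, Same fc.φ (s.free ends A) x y → o x = o y)
    (ho' : ∀ x y, Adj2 fc.φ (t.merged.free ends A) x y → o x = o y)
    (hf0 : f 0 = o (face fc.φ (t.u 0)))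
    (hfR : f (2 * D + 1) = o (face fc.φ (t.u (2 * D + 1))))
    (hlip : ∀ j ≤ 2 * D, j ≠ D → f (j + 1) ≤ f j + 1 ∧ f j ≤ f (j + 1) + 1)
    {x y : Φ} {j : ℕ} (hx : Inc fc.φ (↑(s.alive ends A) : Set E) x)
    (hy : Inc fc.φ (↑(s.alive ends A) : Set E) y)
    (hr : Reach fc.φ (t.merged.free ends A) t.merged.costly x y j) :
    D ≤ j ∨ t.pot f o y ≤ t.pot f o x + j := by
  refine reach_potential (t.free_le) t.costly_le h.sep (t.pot f o)
    (fun a b => t.pot_same f ho) ?_ ?_ hx hy hr
  · rintro a b ⟨e, ⟨he, hal⟩, hab⟩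
    have h1 := t.pot_outer f ho hf0 hfR hal he.2.1 true
    have h2 := t.pot_outer f ho hf0 hfR hal he.2.1 false
    have h3 := ho' _ _ (adj2_self (φ := fc.φ) he)
    simp only [face, cond_true, cond_false] at h1 h2
    rcases hab with hab | hab <;> rw [hab] at h1 h2 h3 <;> simp only at h1 h2 h3 <;> omega
  · rintro a b ⟨e, ⟨⟨hN, hF⟩, hal⟩, hab⟩
    rcases Finset.mem_union.1 hN with hN | hN
    · exact absurd (h.inside e hN) (s.mem_alive.1 hal).2.2.2
    obtain ⟨i, hi, rfl⟩ := Finset.mem_image.1 hN
    rw [Finset.mem_range] at hi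
    have hiD : i ≠ D := fun h => hF (by rw [h]; exact Finset.mem_insert_self _ _)
    obtain ⟨l1, l2⟩ := hlip i (by omega) hiD
    have h1 : t.pot f o (face fc.φ (t.u (i + 1))) = f (i + 1) := t.pot_at f o (by omega) rfl
    have h2 : t.pot f o (face fc.φ (flipEnd (t.u (i + 1)))) = f i :=
      t.pot_at f o (by omega) (t.cls_flip (by omega))
    have hu : (t.u (i + 1)).1 = t.edge i := rfl
    simp only [face, flipEnd, hu] at h1 h2
    cases hb : (t.u (i + 1)).2 <;> simp only [hb, cond_true, cond_false, Bool.not_true,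
      Bool.not_false] at h1 h2 <;>
    rcases hab with hab | hab <;> rw [hab] at h1 h2 <;> simp only at h1 h2 <;> omega

theorem Thread.sep' (h : Inv ends A fc.φ D β θ s) (x y : Φ) (j : ℕ)
    (hx : Inc fc.φ (↑(t.merged.alive ends A) : Set E) x)
    (hy : Inc fc.φ (↑(t.merged.alive ends A) : Set E) y)
    (hr : Reach fc.φ (t.merged.free ends A) t.merged.costly x y j) :
    Same fc.φ (t.merged.free ends A) x y ∨ D ≤ j := by
  classical
  set o : Φ → ℕ := fun z => if Same fc.φ (t.merged.free ends A) x z then 0 else D with ho_def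
  have hcongr : ∀ a b, Same fc.φ (t.merged.free ends A) a b → o a = o b := fun a b hab => by
    simp only [ho_def]
    by_cases h1 : Same fc.φ (t.merged.free ends A) x a
    · rw [if_pos h1, if_pos (h1.trans hab)]
    · rw [if_neg h1, if_neg fun h2 => h1 (h2.trans hab.symm)]
  have ho : ∀ a b, Same fc.φ (s.free ends A) a b → o a = o b := fun a b hab =>
    hcongr a b (hab.mono (t.free_sub h))
  have hoD : ∀ z, o z ≤ D := fun z => by simp only [ho_def]; split_ifs <;> omega
  set f : ℕ → ℕ := fun i => min D (min (o (face fc.φ (t.u 0)) + i)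
    (o (face fc.φ (t.u (2 * D + 1))) + (2 * D + 1 - i))) with hf
  have hf0 : f 0 = o (face fc.φ (t.u 0)) := by
    have := hoD (face fc.φ (t.u 0)); simp only [hf]; omega
  have hfR : f (2 * D + 1) = o (face fc.φ (t.u (2 * D + 1))) := by
    have := hoD (face fc.φ (t.u (2 * D + 1))); simp only [hf]; omega
  rcases t.bound h f ho (fun a b hab => hcongr a b (same_of_adj hab)) hf0 hfR
    (fun i _ _ => by simp only [hf]; omega) (t.inc_le hx) (t.inc_le hy) hr with hb | hb
  · exact .inr hb
  rw [t.inc_pot h f ho hf0 hfR hx, t.inc_pot h f ho hf0 hfR hy] at hb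
  simp only [ho_def, if_pos (Same.refl x)] at hb
  split_ifs at hb with h1
  exacts [.inl h1, .inr (by omega)]

theorem Thread.new_far (h : Inv ends A fc.φ D β θ s) {i : E × Bool} (hi : i.1 = t.edge D)
    {y : Φ} {j : ℕ} (hy : Inc fc.φ (↑(t.merged.alive ends A) : Set E) y)
    (hr : Reach fc.φ (t.merged.free ends A) t.merged.costly (face fc.φ i) y j) : D ≤ j := by
  have hinc : Inc fc.φ (↑(s.alive ends A) : Set E) (face fc.φ i) := by
    refine ⟨i.1, hi ▸ t.edge_alive (by omega), ?_⟩
    cases hb : i.2 <;> simp [face, hb]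
  rcases t.edge_cls (by omega) hi with hc | hc
  · rcases t.bound h (fun l => if D + 1 ≤ l then l - (D + 1) else D + l) (o := fun _ => D)
      (fun _ _ _ => rfl) (fun _ _ _ => rfl) (by simp) (by split_ifs <;> omega)
      (fun l hl hne => by constructor <;> split_ifs <;> omega) hinc (t.inc_le hy) hr with hb | hb
    · exact hb
    rw [t.pot_at _ _ (by omega) hc,
      t.inc_pot h _ (fun _ _ _ => rfl) (by simp) (by split_ifs <;> omega) hy] at hb
    simp only [le_refl, if_true] at hb
    omega
  · rcases t.bound h (fun l => if l ≤ D then D - l else D + (2 * D + 1 - l)) (o := fun _ => D)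
      (fun _ _ _ => rfl) (fun _ _ _ => rfl) (by simp) (by split_ifs <;> omega)
      (fun l hl hne => by constructor <;> split_ifs <;> omega) hinc (t.inc_le hy) hr with hb | hb
    · exact hb
    rw [t.pot_at _ _ (by omega) hc,
      t.inc_pot h _ (fun _ _ _ => rfl) (by simp) (by split_ifs <;> omega) hy] at hb
    simp only [le_refl, if_true] at hb
    omega

theorem Thread.new_apart (h : Inv ends A fc.φ D β θ s) {i i' : E × Bool} (hi : i.1 = t.edge D)
    (hi' : i'.1 = t.edge D) (hne : i ≠ i') {j : ℕ}
    (hr : Reach fc.φ (t.merged.free ends A) t.merged.costly (face fc.φ i) (face fc.φ i') j) :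
    D ≤ j := by
  wlog hc : icls s fc i = icls s fc (t.u D) generalizing i i'
  · refine this hi' hi hne.symm hr.symm ?_
    have hD : icls s fc i = icls s fc (t.u (D + 1)) :=
      (t.edge_cls (by omega) hi).resolve_right hc
    rcases t.edge_cls (show D ≤ 2 * D by omega) hi' with hc' | hc'
    · exfalso
      have h2 : i' = flipEnd i := by
        refine Prod.ext (hi'.trans hi.symm) ?_
        by_contra hb
        refine hne (Prod.ext (hi.trans hi'.symm) ?_)
        revert hb; simp [flipEnd]; cases i.2 <;> cases i'.2 <;> simp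
      have h3 : i = t.u (D + 1) ∨ i = flipEnd (t.u (D + 1)) := by
        by_cases hb : i.2 = (t.u (D + 1)).2
        · exact .inl (Prod.ext hi hb)
        · refine .inr (Prod.ext hi ?_)
          revert hb; simp [flipEnd]; cases i.2 <;> cases (t.u (D + 1)).2 <;> simp
      rcases h3 with h3 | h3
      · rw [h2, h3, t.cls_flip (by omega)] at hc'
        have := t.cls_inj (by omega) (by omega) hc'
        omega
      · exact hc (by rw [h3, t.cls_flip (by omega)])
    · exact hc'
  · have hcls : icls s fc i' = icls s fc (t.u (D + 1)) := by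
      rcases t.edge_cls (show D ≤ 2 * D by omega) hi' with hc' | hc'
      · exact hc'
      exfalso
      have h3 : ∀ l : E × Bool, l.1 = t.edge D → icls s fc l = icls s fc (t.u D) →
          l = flipEnd (t.u (D + 1)) := by
        intro l hl hlc
        rcases t.end_cases (show D ≤ 2 * D + 1 by omega) (hl ▸ t.edge_alive (by omega)) hlc
          with h4 | h4
        · exfalso
          by_cases hD : D = 0
          · subst hD
            have h5 : (t.u 0).1 = t.edge 0 := h4 ▸ hl
            by_cases hb : (t.u 0).2 = (t.u 1).2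
            · have := t.cls_inj (a := 0) (b := 1) (by omega) (by omega)
                (congrArg _ (Prod.ext h5 hb))
              omega
            · have h6 : mate s fc (t.u 0) = t.u 0 := by
                rw [t.mate_u]
                symm
                refine Prod.ext h5 ?_
                revert hb; simp [flipEnd]; cases (t.u 0).2 <;> cases (t.u 1).2 <;> simp
              exact (mate_spec (t.alive 0 (by omega)) (t.good 0 (by omega))).2 h6
          · have h5 : t.edge (D - 1) = t.edge D := by
              rw [← hl, h4, Thread.edge, Nat.sub_add_cancel (by omega)]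
            have := t.edge_inj (by omega) (by omega) h5
            omega
        · exact h4
      exact hne ((h3 i hi hc).trans (h3 i' hi' hc').symm)
    have hinc : ∀ l : E × Bool, l.1 = t.edge D →
        Inc fc.φ (↑(s.alive ends A) : Set E) (face fc.φ l) := by
      intro l hl
      refine ⟨l.1, hl ▸ t.edge_alive (by omega), ?_⟩
      cases hb : l.2 <;> simp [face, hb]
    rcases t.bound h (fun l => if l ≤ D then D - l else D + (2 * D + 1 - l)) (o := fun _ => D)
      (fun _ _ _ => rfl) (fun _ _ _ => rfl) (by simp) (by split_ifs <;> omega)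
      (fun l hl hne => by constructor <;> split_ifs <;> omega) (hinc i hi) (hinc i' hi') hr
      with hb | hb
    · exact hb
    rw [t.pot_at _ _ (by omega) hc, t.pot_at _ _ (by omega) hcls] at hb
    simp only [le_refl, if_true, Nat.sub_self, Nat.add_one_le_iff, lt_irrefl, if_false] at hb
    omega

theorem Thread.merged_inv (h : Inv ends A fc.φ D β θ s) :
    Inv ends A fc.φ D β θ t.merged := by
  classical
  obtain ⟨hA, hta, htb, hne⟩ := s.mem_alive.1 (t.edge_alive (j := D) (by omega))
  set a := (ends (t.edge D)).1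
  set b := (ends (t.edge D)).2
  have hcl : ∀ v, t.merged.cl v = if s.cl v = s.cl b then s.cl a else s.cl v := fun _ => rfl
  have hmono : ∀ u v, s.cl u = s.cl v → t.merged.cl u = t.merged.cl v := fun u v h' => by
    simp only [hcl, h']
  have hkey : ∀ u v, t.merged.cl u = t.merged.cl v → s.cl u = s.cl v ∨
      ((s.cl u = s.cl a ∨ s.cl u = s.cl b) ∧ (s.cl v = s.cl a ∨ s.cl v = s.cl b)) := by
    intro u v h'
    simp only [hcl] at h'
    split_ifs at h' with h1 h2 h2
    exacts [.inl (h1.trans h2.symm), .inr ⟨.inr h1, .inl h'.symm⟩, .inr ⟨.inl h', .inr h2⟩,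
      .inl h']
  have hjoined : ∀ u v, 0 < s.tm v → (t.merged.cl u = t.merged.cl v ↔ s.cl u = s.cl v) := by
    refine fun u v hv => ⟨fun h' => (hkey u v h').resolve_right fun hh => ?_, hmono u v⟩
    rcases hh.2 with h' | h' <;> have := h.tm_eq _ _ h' <;> omega
  have hapex : ∀ a' ∈ A, ∀ u, u ∉ A → s.cl a' ≠ s.cl u := fun a' ha' u hu h' =>
    hu (h.apex a' ha' u h'.symm ▸ ha')
  have hfe : t.edge D ∉ s.F := fun h' => hne (h.inside _ (h.sub h'))
  have hpar : ∀ v, 0 < s.tm v →
      (t.merged.later ends A v = s.later ends A v ∧ t.merged.toward ends A v = s.toward ends A v) := by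
    refine fun v hv => ⟨?_, ?_⟩
    · ext e
      simp only [t.merged.mem_later, s.mem_later, Link, hjoined _ v hv]
      rfl
    · ext e
      simp only [t.merged.mem_toward, s.mem_toward, Link, hjoined _ v hv]
      rfl
  refine
    { sub := ?_, away := ?_, inside := ?_, tm_eq := ?_, apex := ?_, indep := ?_, size := ?_,
      linked := ?_, sep := t.sep' h, far := ?_, apart := ?_, tm_inj := ?_, lab_mem := h.lab_mem,
      lab_eq := ?_,
      later_lt := fun v hv hv' => by rw [(hpar v hv').1]; exact h.later_lt v hv hv'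
      toward_le := fun v hv hv' => by rw [(hpar v hv').2]; exact h.toward_le v hv hv' }
  · intro e he
    rcases Finset.mem_insert.1 he with rfl | he
    exacts [t.edge_mem (by omega), Finset.mem_union_left _ (h.sub he)]
  · intro e he
    rcases Finset.mem_union.1 he with he | he
    · exact h.away e he
    · obtain ⟨j, hj, rfl⟩ := Finset.mem_image.1 he
      exact (s.mem_alive.1 (t.edge_alive (Finset.mem_range.1 hj))).1
  · intro e he
    rcases Finset.mem_union.1 he with he | he
    · exact hmono _ _ (h.inside e he)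
    · obtain ⟨j, hj, rfl⟩ := Finset.mem_image.1 he
      rw [Finset.mem_range] at hj
      rw [t.merged_cl_eq (t.inside_chain h (by omega) _ (.inl rfl)),
        t.merged_cl_eq (t.inside_chain h (by omega) _ (.inr rfl))]
  · intro u v h'
    rcases hkey u v h' with h' | ⟨hu, hv⟩
    · exact h.tm_eq u v h'
    · show s.tm u = s.tm v
      rcases hu with hu | hu <;> rcases hv with hv | hv <;>
        rw [h.tm_eq _ _ hu, h.tm_eq _ _ hv] <;> omega
  · intro a' ha' w h'
    rcases hkey w a' h' with h' | ⟨-, hv | hv⟩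
    · exact h.apex a' ha' w h'
    · exact absurd hv (hapex a' ha' a hA.1)
    · exact absurd hv (hapex a' ha' b hA.2)
  · intro z hz hz0
    have hsupp : ∀ e, e ∉ s.F → e ≠ t.edge D → z e = 0 := fun e h1 h2 =>
      hz e (by simp [Thread.merged, h1, h2])
    have hsum := sum_mul_bd ends (fun v => if s.cl v = s.cl a then (1 : ZMod 2) else 0) z
    rw [hz0, Finset.sum_eq_zero (by simp), Finset.sum_eq_single (t.edge D)] at hsum
    · rw [if_pos rfl, if_neg (Ne.symm hne), add_zero, mul_one] at hsum
      refine h.indep z (fun e he => ?_) hz0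
      by_cases h2 : e = t.edge D
      · rw [h2, ← hsum]
      · exact hsupp e he h2
    · intro e _ hed
      by_cases he : e ∈ s.F
      · simp [h.inside e (h.sub he), two_add_self]
      · simp [hsupp e he hed]
    · simp
  · intro v hv
    by_cases hvab : s.cl v = s.cl a ∨ s.cl v = s.cl b
    · have e1 : ∀ w, t.merged.cl w = t.merged.cl v ↔ (s.cl w = s.cl a ∨ s.cl w = s.cl b) := by
        intro w
        rw [show t.merged.cl v = s.cl a from t.merged_cl_eq hvab]
        refine ⟨fun h' => ?_, t.merged_cl_eq⟩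
        simp only [hcl] at h'
        split_ifs at h' with h1
        exacts [.inr h1, .inl h']
      have e2 : (univ.filter fun w => t.merged.cl w = t.merged.cl v) =
          (univ.filter fun w => s.cl w = s.cl a) ∪ univ.filter fun w => s.cl w = s.cl b := by
        ext w; simp [e1]
      have e3 : (t.merged.F.filter fun e => t.merged.cl (ends e).1 = t.merged.cl v) =
          insert (t.edge D) ((s.F.filter fun e => s.cl (ends e).1 = s.cl a) ∪
            s.F.filter fun e => s.cl (ends e).1 = s.cl b) := by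
        ext e
        simp only [Finset.mem_filter, Finset.mem_insert, Finset.mem_union, e1]
        show (e ∈ insert (t.edge D) s.F ∧ _) ↔ _
        rw [Finset.mem_insert]
        constructor
        · rintro ⟨rfl | he, h'⟩
          · exact .inl rfl
          · exact .inr (h'.imp (fun x => ⟨he, x⟩) fun x => ⟨he, x⟩)
        · rintro (rfl | ⟨he, h'⟩ | ⟨he, h'⟩)
          · exact ⟨.inl rfl, .inl rfl⟩
          · exact ⟨.inr he, .inl h'⟩
          · exact ⟨.inr he, .inr h'⟩
      rw [e2, e3, Finset.card_union_of_disjoint, Finset.card_insert_of_notMem,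
        Finset.card_union_of_disjoint, h.size a hA.1, h.size b hA.2]
      · omega
      · rw [Finset.disjoint_left]; intro e he he'
        exact hne ((Finset.mem_filter.1 he).2.symm.trans (Finset.mem_filter.1 he').2)
      · simp [hfe]
      · rw [Finset.disjoint_left]; intro e he he'
        exact hne ((Finset.mem_filter.1 he).2.symm.trans (Finset.mem_filter.1 he').2)
    · have e1 : ∀ w, t.merged.cl w = t.merged.cl v ↔ s.cl w = s.cl v :=
        fun w => ⟨fun h' => (hkey w v h').resolve_right fun hh => hvab hh.2, hmono w v⟩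
      have e2 : (t.merged.F.filter fun e => t.merged.cl (ends e).1 = t.merged.cl v) =
          s.F.filter fun e => s.cl (ends e).1 = s.cl v := by
        ext e
        simp only [Finset.mem_filter, e1]
        refine ⟨fun ⟨he, h'⟩ => ⟨?_, h'⟩, fun ⟨he, h'⟩ => ⟨Finset.mem_insert_of_mem he, h'⟩⟩
        rcases Finset.mem_insert.1 he with rfl | he
        exacts [absurd (.inl h'.symm) hvab, he]
      rw [e2, ← h.size v hv]
      congr 1
      ext w; simp [e1]
  · intro u v h'
    have hsub : (↑s.F : Set E) ⊆ ↑t.merged.F := fun e he => Finset.mem_insert_of_mem he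
    have hstep : Same ends (↑t.merged.F : Set E) a b :=
      same_of_adj (adj2_self (Finset.mem_insert_self _ _))
    rcases hkey u v h' with h' | ⟨hu, hv⟩
    · exact (h.linked u v h').mono hsub
    · have key : ∀ w, (s.cl w = s.cl a ∨ s.cl w = s.cl b) → Same ends (↑t.merged.F : Set E) w a :=
        fun w hw => hw.elim (fun hw => (h.linked w a hw).mono hsub)
          fun hw => ((h.linked w b hw).mono hsub).trans hstep.symm
      exact (key u hu).trans (key v hv).symm
  · intro i hi y j hy hr
    rcases Finset.mem_insert.1 hi with hi | hi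
    · exact t.new_far h hi hy hr
    · rcases reach_of_far t.free_le t.costly_le (h.far i hi) hr with hr | hr
      exacts [hr, h.far i hi y j (t.inc_le hy) hr]
  · intro i i' hi hi' hne' j hr
    have hinc : ∀ l : E × Bool, l.1 = t.edge D →
        Inc fc.φ (↑(s.alive ends A) : Set E) (face fc.φ l) := by
      intro l hl
      refine ⟨l.1, hl ▸ t.edge_alive (by omega), ?_⟩
      cases hb : l.2 <;> simp [face, hb]
    rcases Finset.mem_insert.1 hi with hi | hi <;> rcases Finset.mem_insert.1 hi' with hi' | hi'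
    · exact t.new_apart h hi hi' hne' hr
    · rcases reach_of_far t.free_le t.costly_le (h.far i' hi') hr.symm with hr | hr
      exacts [hr, h.far i' hi' _ j (hinc i hi) hr]
    · rcases reach_of_far t.free_le t.costly_le (h.far i hi) hr with hr | hr
      exacts [hr, h.far i hi _ j (hinc i' hi') hr]
    · rcases reach_of_far t.free_le t.costly_le (h.far i hi) hr with hr | hr
      exacts [hr, h.apart i i' hi hi' hne' j hr]
  · intro u v hu hv h0 heq
    exact hmono u v (h.tm_inj u v hu hv h0 heq)
  · intro u v hu hv h0 heq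
    exact h.lab_eq u v hu hv h0 ((hjoined u v h0).1 heq)

theorem Thread.merged_count :
    t.merged.count A < s.count A := by
  classical
  obtain ⟨hA, hta, htb, hne⟩ := s.mem_alive.1 (t.edge_alive (j := D) (by omega))
  have hopen : t.merged.open_ A = s.open_ A := rfl
  have hb : s.cl (ends (t.edge D)).2 ∈ (s.open_ A).image s.cl :=
    Finset.mem_image_of_mem _ (s.mem_open.2 ⟨hA.2, htb⟩)
  refine lt_of_le_of_lt (Finset.card_le_card ?_) (Finset.card_erase_lt_of_mem hb)
  intro x hx
  rw [hopen, Finset.mem_image] at hx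
  obtain ⟨v, hv, rfl⟩ := hx
  rw [Finset.mem_erase]
  by_cases hvb : s.cl v = s.cl (ends (t.edge D)).2
  · rw [t.merged_cl_eq (.inr hvb)]
    exact ⟨hne, Finset.mem_image_of_mem _ (s.mem_open.2 ⟨hA.1, hta⟩)⟩
  · simp only [Thread.merged, if_neg hvb]
    exact ⟨hvb, Finset.mem_image_of_mem _ hv⟩

end Vale.Agent.P061.Apex
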