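import Vale.Agent.P061.Apex.Reach
import Vale.Agent.P061.Treewidth.Defs

/-!
P061 surfaces plus apices: a connected edge set contains a spanning tree.
-/

open Finset Vale.Agent.P061.Treewidth

namespace Vale.Agent.P061.Apex

theorem exists_tree {V E : Type} [Fintype V] [Nonempty V] {ends : E → V × V} (U : Finset E)
    (hU : ∀ u v, Same ends (↑U : Set E) u v) :
    ∃ T : Finset E, T ⊆ U ∧ IsSpanningTree ends T := by
  classical
  set pr : E → Sym2 V := fun e => s((ends e).1, (ends e).2) with hpr
  set G := SimpleGraph.fromEdgeSet (pr '' (U : Set E)) with hG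
  have hreach : ∀ u v, G.Reachable u v := fun u v => by
    induction hU u v with
    | rel a b hab =>
      by_cases hne : a = b
      · rw [hne]
      refine SimpleGraph.Adj.reachable ((SimpleGraph.fromEdgeSet_adj _).2 ⟨?_, hne⟩)
      obtain ⟨e, he, h | h⟩ := hab
      · exact ⟨e, he, by simp [hpr, h]⟩
      · exact ⟨e, he, by simp [hpr, h, Sym2.eq_swap]⟩
    | refl => exact SimpleGraph.Reachable.refl _
    | symm _ _ _ ih => exact ih.symm
    | trans _ _ _ _ _ ih ih' => exact ih.trans ih'
  obtain ⟨T, hle, hT⟩ := (SimpleGraph.Connected.mk hreach).exists_isTree_le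
  have hmem : ∀ x ∈ T.edgeFinset, ∃ e ∈ U, pr e = x := by
    intro x hx
    rw [SimpleGraph.mem_edgeFinset] at hx
    have := SimpleGraph.edgeSet_mono hle hx
    rw [hG, SimpleGraph.edgeSet_fromEdgeSet] at this
    obtain ⟨⟨e, he, rfl⟩, -⟩ := this
    exact ⟨e, he, rfl⟩
  choose f hfU hf using hmem
  refine ⟨T.edgeFinset.attach.image fun x => f x.1 x.2, ?_, ?_, ?_⟩
  · intro e he
    obtain ⟨x, -, rfl⟩ := Finset.mem_image.1 he
    exact hfU _ _
  · rw [Finset.card_image_of_injective _ fun x y h => Subtype.ext ?_, Finset.card_attach,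
      hT.card_edgeFinset]
    rw [← hf x.1 x.2, ← hf y.1 y.2]
    exact congrArg pr h
  · have him : pr '' ↑(T.edgeFinset.attach.image fun x => f x.1 x.2) = T.edgeSet := by
      ext x
      simp only [Set.mem_image, Finset.mem_coe, Finset.mem_image, Finset.mem_attach, true_and]
      constructor
      · rintro ⟨e, ⟨y, rfl⟩, rfl⟩
        rw [hf y.1 y.2]
        exact SimpleGraph.mem_edgeFinset.1 y.2
      · intro hx
        exact ⟨_, ⟨⟨x, SimpleGraph.mem_edgeFinset.2 hx⟩, rfl⟩, hf _ _⟩
    rw [him, SimpleGraph.fromEdgeSet_edgeSet]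
    exact hT

end Vale.Agent.P061.Apex
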