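import Vale.Agent.P061.Apex.Forest
import Vale.Agent.P061.Apex.Spanning

/-!
P061 surfaces plus apices: parent edges of the joined clusters, by Hall's theorem.
-/

open Finset Vale.Agent.P061.Treewidth

namespace Vale.Agent.P061.Apex

variable {V E Φ : Type} [Fintype V] [Fintype E] [DecidableEq V] [DecidableEq E]
  {ends : E → V × V} {A : Finset V} {φ : E → Φ × Φ} {D β θ : ℕ} {s : St V E}

/-- The names of the clusters outside `A`. -/
def St.names (s : St V E) (A : Finset V) : Finset V :=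
  ((univ : Finset V).filter fun v => v ∉ A).image s.cl

open Classical in
/-- A vertex of the cluster named `U`. -/
noncomputable def St.rep (s : St V E) (A : Finset V) (U : V) : V :=
  if h : U ∈ s.names A then (Finset.mem_image.1 h).choose else U

theorem rep_spec {U : V} (hU : U ∈ s.names A) : s.rep A U ∉ A ∧ s.cl (s.rep A U) = U := by
  unfold St.rep
  rw [dif_pos hU]
  have h := (Finset.mem_image.1 hU).choose_spec
  exact ⟨(Finset.mem_filter.1 h.1).2, h.2⟩

theorem names_mem {v : V} (hv : v ∉ A) : s.cl v ∈ s.names A :=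
  Finset.mem_image_of_mem _ (Finset.mem_filter.2 ⟨Finset.mem_univ v, hv⟩)

theorem rep_cl (h : Inv ends A φ D β θ s) (hall : ∀ v, v ∉ A → 0 < s.tm v) {v : V} (hv : v ∉ A) :
    s.tm (s.rep A (s.cl v)) = s.tm v ∧ s.lab (s.rep A (s.cl v)) = s.lab v := by
  obtain ⟨h1, h2⟩ := rep_spec (names_mem (s := s) hv)
  exact ⟨h.tm_eq _ _ h2, h.lab_eq _ _ h1 hv (hall v hv) h2⟩

theorem later_congr (h : Inv ends A φ D β θ s) {u v : V} (huv : s.cl u = s.cl v) :
    s.later ends A u = s.later ends A v := by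
  ext e
  rw [s.mem_later, s.mem_later, huv, h.tm_eq u v huv]

theorem toward_split (h : Inv ends A φ D β θ s) {v : V} (hv : v ∉ A) {e : E}
    (he : e ∈ s.toward ends A v) :
    (∃ p, s.cl p = s.cl v ∧ p ∉ A ∧ ((p = (ends e).1 ∧ s.lab v = (ends e).2) ∨
      (p = (ends e).2 ∧ s.lab v = (ends e).1))) ∨
    (∃ p w, s.cl p = s.cl v ∧ p ∉ A ∧ w ∉ A ∧ s.tm v < s.tm w ∧ s.lab w = s.lab v ∧
      ((p = (ends e).1 ∧ w = (ends e).2) ∨ (p = (ends e).2 ∧ w = (ends e).1)) ∧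
      e ∈ s.later ends A w) := by
  have hp : ∀ p, s.cl p = s.cl v → p ∉ A := fun p hp hpA => hv (h.apex p hpA v hp.symm ▸ hpA)
  have hlater : ∀ p w, s.cl p = s.cl v → w ∉ A → s.tm v < s.tm w →
      ((p = (ends e).1 ∧ w = (ends e).2) ∨ (p = (ends e).2 ∧ w = (ends e).1)) →
      e ∈ s.later ends A w := by
    intro p w hpv hw hlt hpw
    have htp := h.tm_eq p v hpv
    rw [s.mem_later]
    rcases hpw with ⟨rfl, rfl⟩ | ⟨rfl, rfl⟩
    · exact ⟨⟨hp _ hpv, hw⟩, .inr ⟨rfl, by omega⟩⟩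
    · exact ⟨⟨hw, hp _ hpv⟩, .inl ⟨rfl, by omega⟩⟩
  rcases s.mem_toward.1 he with ⟨h1, h2 | ⟨h2, h3, h4⟩⟩ | ⟨h1, h2 | ⟨h2, h3, h4⟩⟩
  · exact .inl ⟨_, h1, hp _ h1, .inl ⟨rfl, h2.symm⟩⟩
  · exact .inr ⟨_, _, h1, hp _ h1, h2, h3, h4, .inl ⟨rfl, rfl⟩,
      hlater _ _ h1 h2 h3 (.inl ⟨rfl, rfl⟩)⟩
  · exact .inl ⟨_, h1, hp _ h1, .inr ⟨rfl, h2.symm⟩⟩
  · exact .inr ⟨_, _, h1, hp _ h1, h2, h3, h4, .inr ⟨rfl, rfl⟩,
      hlater _ _ h1 h2 h3 (.inr ⟨rfl, rfl⟩)⟩

theorem toward_disjoint (h : Inv ends A φ D β θ s) (hall : ∀ v, v ∉ A → 0 < s.tm v) {u v : V}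
    (hu : u ∉ A) (hv : v ∉ A) (hne : s.cl u ≠ s.cl v) :
    Disjoint (s.toward ends A u) (s.toward ends A v) := by
  rw [Finset.disjoint_left]
  intro e heu hev
  rcases toward_split h hu heu with ⟨p, hp, hpA, hpe⟩ | ⟨p, w, hp, hpA, hwA, hlt, -, hpe, -⟩
  · have hl := h.lab_mem u hu (hall u hu)
    rcases toward_split h hv hev with ⟨p', hp', hpA', hpe'⟩ |
        ⟨p', w', hp', hpA', hwA', -, -, hpe', -⟩
    · rcases hpe with ⟨a, b⟩ | ⟨a, b⟩ <;> rcases hpe' with ⟨a', b'⟩ | ⟨a', b'⟩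
      · exact hne (by rw [← hp, ← hp', a, a'])
      · exact hpA' (a' ▸ b ▸ hl)
      · exact hpA' (a' ▸ b ▸ hl)
      · exact hne (by rw [← hp, ← hp', a, a'])
    · rcases hpe with ⟨a, b⟩ | ⟨a, b⟩ <;> rcases hpe' with ⟨a', b'⟩ | ⟨a', b'⟩
      · exact hwA' (b' ▸ b ▸ hl)
      · exact hpA' (a' ▸ b ▸ hl)
      · exact hpA' (a' ▸ b ▸ hl)
      · exact hwA' (b' ▸ b ▸ hl)
  · rcases toward_split h hv hev with ⟨p', hp', hpA', hpe'⟩ |
        ⟨p', w', hp', hpA', hwA', hlt', -, hpe', -⟩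
    · have hl := h.lab_mem v hv (hall v hv)
      rcases hpe with ⟨a, b⟩ | ⟨a, b⟩ <;> rcases hpe' with ⟨a', b'⟩ | ⟨a', b'⟩
      · exact hwA (b ▸ b' ▸ hl)
      · exact hpA (a ▸ b' ▸ hl)
      · exact hpA (a ▸ b' ▸ hl)
      · exact hwA (b ▸ b' ▸ hl)
    · have t1 := h.tm_eq p u hp
      have t2 := h.tm_eq p' v hp'
      rcases hpe with ⟨a, b⟩ | ⟨a, b⟩ <;> rcases hpe' with ⟨a', b'⟩ | ⟨a', b'⟩
      · exact hne (by rw [← hp, ← hp', a, a'])
      · rw [b, ← a'] at hlt; rw [b', ← a] at hlt'; omega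
      · rw [b, ← a'] at hlt; rw [b', ← a] at hlt'; omega
      · exact hne (by rw [← hp, ← hp', a, a'])

/-- The clusters which can serve as parent of `U`. -/
noncomputable def St.pars (s : St V E) (A : Finset V) (U : V) : Finset V :=
  (s.names A).filter fun W => s.tm (s.rep A U) < s.tm (s.rep A W) ∧
    s.lab (s.rep A W) = s.lab (s.rep A U)

/-- A choice of one edge towards the root for every joined cluster. -/
structure Parent (ends : E → V × V) (A : Finset V) (s : St V E) where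
  /-- the chosen edge -/
  pe : V → E
  /-- the parent cluster, none at an edge to the apex -/
  par : V → Option V
  edge : ∀ U ∈ s.names A, Link ends (pe U) (fun u => s.cl u = U)
    (fun w => (par U = none ∧ w = s.lab (s.rep A U)) ∨
      (par U = some (s.cl w) ∧ w ∉ A ∧ s.tm (s.rep A U) < s.tm w ∧
        s.lab w = s.lab (s.rep A U)))
  inj : ∀ U ∈ s.names A, ∀ U' ∈ s.names A, par U ≠ none → par U = par U' → U = U'

theorem exists_parent (h : Inv ends A φ D β θ s) (hall : ∀ v, v ∉ A → 0 < s.tm v)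
    (hβ : β ≤ θ) (hθ : 0 < θ) [Nonempty E] : Nonempty (Parent ends A s) := by
  classical
  let roots : V → Finset E := fun U => univ.filter fun e =>
    Link ends e (fun u => s.cl u = U) (fun w => w = s.lab (s.rep A U))
  let ι := {U : V // U ∈ s.names A ∧ roots U = ∅}
  let link : V → V → Finset E := fun U W => univ.filter fun e =>
    Link ends e (fun u => s.cl u = U)
      (fun w => w ∉ A ∧ s.cl w = W ∧ s.tm (s.rep A U) < s.tm w ∧ s.lab w = s.lab (s.rep A U))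
  let t : ι → Finset V := fun U => (s.names A).filter fun W => (link U.1 W).Nonempty
  have hall' : ∀ X : Finset ι, X.card ≤ (X.biUnion t).card := by
    intro X
    have hdis : (X : Set ι).PairwiseDisjoint fun U => s.toward ends A (s.rep A U.1) := by
      intro U _ U' _ hne
      refine toward_disjoint h hall (rep_spec U.2.1).1 (rep_spec U'.2.1).1 ?_
      rw [(rep_spec U.2.1).2, (rep_spec U'.2.1).2]
      exact fun hh => hne (Subtype.ext hh)
    have h1 : X.card * θ ≤ (X.biUnion fun U => s.toward ends A (s.rep A U.1)).card := by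
      rw [Finset.card_biUnion hdis, ← smul_eq_mul]
      exact Finset.card_nsmul_le_sum _ _ _ fun U _ =>
        h.toward_le _ (rep_spec U.2.1).1 (hall _ (rep_spec U.2.1).1)
    have h2 : (X.biUnion fun U => s.toward ends A (s.rep A U.1)) ⊆
        (X.biUnion t).biUnion fun W => s.later ends A (s.rep A W) := by
      intro e he
      obtain ⟨U, hU, he⟩ := Finset.mem_biUnion.1 he
      obtain ⟨hrA, hrc⟩ := rep_spec U.2.1
      rcases toward_split h hrA he with ⟨p, hp, -, hpe⟩ | ⟨p, w, hp, -, hw, hlt, hlab, hpe, hlat⟩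
      · exfalso
        have : e ∈ roots U.1 := by
          refine Finset.mem_filter.2 ⟨Finset.mem_univ _, ?_⟩
          rcases hpe with ⟨rfl, b⟩ | ⟨rfl, b⟩
          · exact .inl ⟨hp.trans hrc, b.symm⟩
          · exact .inr ⟨hp.trans hrc, b.symm⟩
        simp [U.2.2] at this
      · refine Finset.mem_biUnion.2 ⟨s.cl w, Finset.mem_biUnion.2 ⟨U, hU,
          Finset.mem_filter.2 ⟨names_mem hw, ⟨e, Finset.mem_filter.2 ⟨Finset.mem_univ _, ?_⟩⟩⟩⟩, ?_⟩
        · rcases hpe with ⟨rfl, rfl⟩ | ⟨rfl, rfl⟩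
          · exact .inl ⟨hp.trans hrc, hw, rfl, hlt, hlab⟩
          · exact .inr ⟨hp.trans hrc, hw, rfl, hlt, hlab⟩
        · rw [later_congr h (rep_spec (names_mem hw)).2]
          exact hlat
    have h3 := h1.trans ((Finset.card_le_card h2).trans Finset.card_biUnion_le)
    have h4 : ∑ W ∈ X.biUnion t, (s.later ends A (s.rep A W)).card ≤ (X.biUnion t).card * θ := by
      rw [← smul_eq_mul]
      refine Finset.sum_le_card_nsmul _ _ _ fun W hW => ?_
      obtain ⟨U, -, hW⟩ := Finset.mem_biUnion.1 hW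
      obtain ⟨hA', -⟩ := rep_spec (Finset.mem_filter.1 hW).1
      exact (h.later_lt _ hA' (hall _ hA')).le.trans hβ
    exact Nat.le_of_mul_le_mul_right (h3.trans h4) hθ
  obtain ⟨f, hfinj, hf⟩ :=
    (Finset.all_card_le_biUnion_card_iff_exists_injective t).1 hall'
  have hsel : ∀ U : {U : V // U ∈ s.names A}, ∃ (e : E) (P : Option V),
      Link ends e (fun u => s.cl u = U.1)
        (fun w => (P = none ∧ w = s.lab (s.rep A U.1)) ∨
          (P = some (s.cl w) ∧ w ∉ A ∧ s.tm (s.rep A U.1) < s.tm w ∧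
            s.lab w = s.lab (s.rep A U.1))) ∧
      (P ≠ none → ∃ hU : roots U.1 = ∅, P = some (f ⟨U.1, U.2, hU⟩)) := by
    rintro ⟨U, hU⟩
    by_cases hr : roots U = ∅
    · have := hf ⟨U, hU, hr⟩
      obtain ⟨hn, e, he⟩ := Finset.mem_filter.1 this
      refine ⟨e, some (f ⟨U, hU, hr⟩), ?_, fun _ => ⟨hr, rfl⟩⟩
      rcases (Finset.mem_filter.1 he).2 with ⟨a, b, c, d⟩ | ⟨a, b, c, d⟩
      exacts [.inl ⟨a, .inr ⟨by rw [c], b, d⟩⟩, .inr ⟨a, .inr ⟨by rw [c], b, d⟩⟩]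
    · obtain ⟨e, he⟩ := Finset.nonempty_iff_ne_empty.2 hr
      refine ⟨e, none, ?_, fun hne => absurd rfl hne⟩
      rcases (Finset.mem_filter.1 he).2 with ⟨a, b⟩ | ⟨a, b⟩
      exacts [.inl ⟨a, .inl ⟨rfl, b⟩⟩, .inr ⟨a, .inl ⟨rfl, b⟩⟩]
  choose pe0 par0 hlink hroot using hsel
  refine ⟨⟨fun U => if hU : U ∈ s.names A then pe0 ⟨U, hU⟩ else Classical.arbitrary E,
    fun U => if hU : U ∈ s.names A then par0 ⟨U, hU⟩ else none, ?_, ?_⟩⟩
  · intro U hU
    simp only [dif_pos hU]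
    exact hlink ⟨U, hU⟩
  · intro U hU U' hU' hne heq
    simp only [dif_pos hU, dif_pos hU'] at hne heq
    obtain ⟨hr, he⟩ := hroot ⟨U, hU⟩ hne
    obtain ⟨hr', he'⟩ := hroot ⟨U', hU'⟩ (heq ▸ hne)
    have := hfinj (Option.some_injective _ (he.symm.trans (heq.trans he')))
    exact congrArg Subtype.val this

end Vale.Agent.P061.Apex
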