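import Vale.Agent.P061.Apex.Join

/-!
P061 surfaces plus apices: the contraction process ends.
-/

open Finset Vale.Agent.P061.Treewidth

namespace Vale.Agent.P061.Apex

variable {V E Φ : Type} [Fintype V] [Fintype E] [DecidableEq V] [DecidableEq E] [Fintype Φ]
  {ends : E → V × V} {A : Finset V} {g D β θ k : ℕ} {s : St V E}
  {fc : Faces ends (awayEdges ends ↑A) Φ g}

/-- The parameters of the process. -/
structure Params (A : Finset V) (g k D β θ : ℕ) : Prop where
  β_pos : 0 < β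
  β_le : β ≤ k
  share : A.card * θ + β ≤ k
  room : ∀ n, 1 ≤ n → (2 * D + 1 + 1) * (6 * (n + g)) < β * n

theorem exists_join (h : Inv ends A fc.φ D β θ s) (hc : EdgeConnected ends k)
    (hp : Params A g k D β θ) (hA : A.Nonempty) {v : V} (hv : v ∉ A) (h0 : s.tm v = 0)
    (hlow : open Classical in ((s.alive ends A).filter fun e =>
      s.cl (ends e).1 = s.cl v ∨ s.cl (ends e).2 = s.cl v).card < β) :
    ∃ a ∈ A, Inv ends A fc.φ D β θ (s.join v a) := by
  classical
  set L := (s.alive ends A).filter fun e => s.cl (ends e).1 = s.cl v ∨ s.cl (ends e).2 = s.cl v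
  set T : V → Finset E := fun a => univ.filter fun e => Link ends e (fun u => s.cl u = s.cl v)
    (fun w => w = a ∨ (w ∉ A ∧ 0 < s.tm w ∧ s.lab w = a)) with hT
  have hSA : ∀ w, s.cl w = s.cl v → w ∉ A := fun w hw hwA =>
    hv (h.apex w hwA v hw.symm ▸ hwA)
  obtain ⟨a₀, ha₀⟩ := hA
  have hk := hc {w | s.cl w = s.cl v} ⟨v, rfl⟩ fun hu =>
    hSA a₀ ((Set.eq_univ_iff_forall.1 hu a₀ :)) ha₀
  have hsub : cutEdges ends Finset.univ {w | s.cl w = s.cl v} ⊆ ↑(L ∪ A.biUnion T) := by
    have key : ∀ e p w, ((p = (ends e).1 ∧ w = (ends e).2) ∨ (p = (ends e).2 ∧ w = (ends e).1)) →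
        s.cl p = s.cl v → s.cl w ≠ s.cl v → e ∈ L ∪ A.biUnion T := by
      intro e p w hpw hp' hw
      have hlink : ∀ a, (w = a ∨ (w ∉ A ∧ 0 < s.tm w ∧ s.lab w = a)) → e ∈ T a := by
        intro a hw'
        refine Finset.mem_filter.2 ⟨Finset.mem_univ _, ?_⟩
        rcases hpw with ⟨rfl, rfl⟩ | ⟨rfl, rfl⟩
        exacts [.inl ⟨hp', hw'⟩, .inr ⟨hp', hw'⟩]
      rw [Finset.mem_union, Finset.mem_biUnion]
      by_cases hwA : w ∈ A
      · exact .inr ⟨w, hwA, hlink w (.inl rfl)⟩
      by_cases hw0 : s.tm w = 0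
      · have hp0 : s.tm p = 0 := (h.tm_eq p v hp').trans h0
        refine .inl (Finset.mem_filter.2 ⟨s.mem_alive.2 ?_, ?_⟩)
        · rcases hpw with ⟨rfl, rfl⟩ | ⟨rfl, rfl⟩
          · exact ⟨⟨hSA _ hp', hwA⟩, hp0, hw0, fun hh => hw (hh.symm.trans hp')⟩
          · exact ⟨⟨hwA, hSA _ hp'⟩, hw0, hp0, fun hh => hw (hh.trans hp')⟩
        · rcases hpw with ⟨rfl, rfl⟩ | ⟨rfl, rfl⟩
          exacts [.inl hp', .inr hp']
      · exact .inr ⟨s.lab w, h.lab_mem w hwA (Nat.pos_of_ne_zero hw0),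
          hlink _ (.inr ⟨hwA, Nat.pos_of_ne_zero hw0, rfl⟩)⟩
    rintro e ⟨-, he⟩
    rw [Finset.mem_coe]
    by_cases hp' : s.cl (ends e).1 = s.cl v
    · exact key e _ _ (.inl ⟨rfl, rfl⟩) hp' fun hw => he.1 hp' hw
    · exact key e _ _ (.inr ⟨rfl, rfl⟩) (by
        by_contra hw
        exact hp' (he.2 hw)) hp'
  have hk' := hk.trans ((Set.ncard_le_ncard hsub (Finset.finite_toSet _)).trans
    (Set.ncard_coe_finset _).le)
  have hsum := hk'.trans ((Finset.card_union_le _ _).trans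
    (Nat.add_le_add_left Finset.card_biUnion_le _))
  by_contra hno
  push Not at hno
  have hsmall : ∀ a ∈ A, (T a).card < θ := fun a ha =>
    Nat.lt_of_not_le fun hle => hno a ha (inv_join h hv h0 ha hlow hle)
  have h1 : ∑ a ∈ A, (T a).card ≤ A.card * θ := by
    simpa using Finset.sum_le_card_nsmul A _ θ fun a ha => (hsmall a ha).le
  have := hp.share
  omega

theorem exists_final (h : Inv ends A fc.φ D β θ s) (hc : EdgeConnected ends k)
    (hp : Params A g k D β θ) :
    ∃ s' : St V E, Inv ends A fc.φ D β θ s' ∧ s'.alive ends A = ∅ ∧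
      (A.Nonempty → ∀ v, v ∉ A → 0 < s'.tm v) := by
  classical
  induction hn : s.count A using Nat.strong_induction_on generalizing s with
  | _ n ih =>
  subst hn
  by_cases hjoin : A.Nonempty ∧ ∃ v, v ∉ A ∧ s.tm v = 0 ∧
      ((s.alive ends A).filter fun e =>
        s.cl (ends e).1 = s.cl v ∨ s.cl (ends e).2 = s.cl v).card < β
  · obtain ⟨hA, v, hv, h0, hlow⟩ := hjoin
    obtain ⟨a, -, h'⟩ := exists_join h hc hp hA hv h0 hlow
    exact ih _ (count_join hv h0) h' rfl
  by_cases hal : s.alive ends A = ∅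
  · refine ⟨s, h, hal, fun hA v hv => Nat.pos_of_ne_zero fun h0 => hjoin ⟨hA, v, hv, h0, ?_⟩⟩
    rw [hal, Finset.filter_empty, Finset.card_empty]
    exact hp.β_pos
  have hdeg : ∀ U ∈ (s.open_ A).image s.cl, β ≤ ((s.alive ends A).filter fun e =>
      s.cl (ends e).1 = U ∨ s.cl (ends e).2 = U).card := by
    intro U hU
    obtain ⟨v, hv, rfl⟩ := Finset.mem_image.1 hU
    rw [s.mem_open] at hv
    rcases A.eq_empty_or_nonempty with hA | hA
    · have htm : ∀ w, s.tm w = 0 := fun w => Nat.eq_zero_of_not_pos fun hw => by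
        simpa [hA] using h.lab_mem w (by simp [hA]) hw
      have hne : ({w | s.cl w = s.cl v} : Set V) ≠ Set.univ := fun hu => by
        obtain ⟨e, he⟩ := Finset.nonempty_iff_ne_empty.2 hal
        exact (s.mem_alive.1 he).2.2.2
          (((Set.eq_univ_iff_forall.1 hu (ends e).1 :)).trans
            (Set.eq_univ_iff_forall.1 hu (ends e).2 :).symm)
      refine le_trans hp.β_le ((hc {w | s.cl w = s.cl v} ⟨v, rfl⟩ hne).trans ?_)
      rw [← Set.ncard_coe_finset]
      refine Set.ncard_le_ncard (fun e he => ?_) (Finset.finite_toSet _)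
      have he' := he.2
      change (s.cl (ends e).1 = s.cl v ↔ ¬ s.cl (ends e).2 = s.cl v) at he'
      rw [Finset.mem_coe, Finset.mem_filter, s.mem_alive]
      refine ⟨⟨by simp [awayEdges, hA], htm _, htm _, fun hh => ?_⟩, ?_⟩
      · rw [hh] at he'; exact (iff_not_self he')
      · by_contra hno
        push Not at hno
        exact hno.1 (he'.2 hno.2)
    · exact Nat.le_of_not_lt fun hlt => hjoin ⟨hA, v, hv.1, hv.2, hlt⟩
  have hsum : β * s.count A ≤ 2 * (s.alive ends A).card := by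
    have h1 := Finset.card_nsmul_le_sum _ _ β hdeg
    rw [smul_eq_mul, Nat.mul_comm] at h1
    refine h1.trans ?_
    simp only [Finset.card_filter]
    rw [Finset.sum_comm, Nat.mul_comm, ← smul_eq_mul]
    refine Finset.sum_le_card_nsmul _ _ 2 fun e _ => ?_
    rw [← Finset.card_filter]
    refine (Finset.card_le_card (fun U hU => ?_)).trans
      (Finset.card_le_two (a := s.cl (ends e).1) (b := s.cl (ends e).2))
    rcases (Finset.mem_filter.1 hU).2 with rfl | rfl <;> simp
  have hn1 : 1 ≤ s.count A := by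
    obtain ⟨e, he⟩ := Finset.nonempty_iff_ne_empty.2 hal
    exact Finset.card_pos.2 ⟨_, Finset.mem_image_of_mem _
      (s.mem_open.2 ⟨(s.mem_alive.1 he).1.1, (s.mem_alive.1 he).2.1⟩)⟩
  obtain ⟨t⟩ := exists_thread (R := 2 * D + 1) h (lt_of_lt_of_le (hp.room _ hn1) hsum)
  exact ih _ t.merged_count (t.merged_inv h) rfl

/-- The final state of the process. -/
theorem exists_state (hc : EdgeConnected ends k) (hp : Params A g k D β θ)
    (fc : Faces ends (awayEdges ends ↑A) Φ g) :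
    ∃ s' : St V E, Inv ends A fc.φ D β θ s' ∧ s'.alive ends A = ∅ ∧
      (A.Nonempty → ∀ v, v ∉ A → 0 < s'.tm v) :=
  exists_final (inv_initial D β θ) hc hp

end Vale.Agent.P061.Apex
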