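import Mathlib

/-!
P061 surfaces plus apices: distances on faces where some edges are free and some cost one.
-/

namespace Vale.Agent.P061.Apex

variable {E Φ : Type} {φ : E → Φ × Φ} {K C K' C' Al : Set E}

/-- The faces `x` and `y` are the two faces of an edge in `K`. -/
def Adj2 (φ : E → Φ × Φ) (K : Set E) (x y : Φ) : Prop := ∃ e ∈ K, φ e = (x, y) ∨ φ e = (y, x)

/-- A route from `x` to `y` which uses exactly `j` edges of `C` and any edges of `K`. -/
inductive Reach (φ : E → Φ × Φ) (K C : Set E) (x : Φ) : Φ → ℕ → Prop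
  | refl : Reach φ K C x x 0
  | free {y z : Φ} {j : ℕ} : Reach φ K C x y j → Adj2 φ K y z → Reach φ K C x z j
  | cost {y z : Φ} {j : ℕ} : Reach φ K C x y j → Adj2 φ C y z → Reach φ K C x z (j + 1)

theorem Adj2.symm {x y : Φ} (h : Adj2 φ K x y) : Adj2 φ K y x :=
  let ⟨e, he, h⟩ := h; ⟨e, he, h.symm⟩

theorem adj2_self {e : E} (he : e ∈ K) : Adj2 φ K (φ e).1 (φ e).2 := ⟨e, he, .inl rfl⟩

theorem Reach.trans {x y z : Φ} {i j : ℕ} (h : Reach φ K C x y i) (h' : Reach φ K C y z j) :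
    Reach φ K C x z (i + j) := by
  induction h' with
  | refl => exact h
  | free _ ha ih => exact ih.free ha
  | cost _ ha ih => exact ih.cost ha

theorem Reach.symm {x y : Φ} {j : ℕ} (h : Reach φ K C x y j) : Reach φ K C y x j := by
  induction h with
  | refl => exact .refl
  | free _ ha ih => simpa using ((Reach.refl).free ha.symm).trans ih
  | @cost y z j _ ha ih =>
    rw [Nat.add_comm]
    exact ((Reach.refl).cost ha.symm).trans ih

/-- The classes of faces under free edges. -/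
def classes (φ : E → Φ × Φ) (K : Set E) : Setoid Φ := Relation.EqvGen.setoid (Adj2 φ K)

/-- Two faces in one class. -/
def Same (φ : E → Φ × Φ) (K : Set E) (x y : Φ) : Prop := (classes φ K).r x y

theorem Same.refl (x : Φ) : Same φ K x x := (classes φ K).refl x

theorem Same.symm {x y : Φ} (h : Same φ K x y) : Same φ K y x := (classes φ K).symm h

theorem Same.trans {x y z : Φ} (h : Same φ K x y) (h' : Same φ K y z) : Same φ K x z :=
  (classes φ K).trans h h'

theorem same_of_adj {x y : Φ} (h : Adj2 φ K x y) : Same φ K x y := Relation.EqvGen.rel _ _ h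

theorem same_const {α : Type*} (f : Φ → α) (hf : ∀ e ∈ K, f (φ e).1 = f (φ e).2) {x y : Φ}
    (h : Same φ K x y) : f x = f y := by
  induction h with
  | rel a b hab =>
    obtain ⟨e, he, h | h⟩ := hab <;> have := hf e he <;> rw [h] at this
    exacts [this, this.symm]
  | refl => rfl
  | symm _ _ _ ih => exact ih.symm
  | trans _ _ _ _ _ ih ih' => exact ih.trans ih'

/-- The faces of edges of `Al`. -/
def Inc (φ : E → Φ × Φ) (Al : Set E) (x : Φ) : Prop := ∃ e ∈ Al, (φ e).1 = x ∨ (φ e).2 = x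

theorem inc_of_adj {x y : Φ} (h : Adj2 φ Al x y) : Inc φ Al x ∧ Inc φ Al y := by
  obtain ⟨e, he, h | h⟩ := h <;> exact
    ⟨⟨e, he, by simp [h]⟩, ⟨e, he, by simp [h]⟩⟩

theorem adj_split {x y : Φ} (hK : K' ⊆ K ∪ Al) (h : Adj2 φ K' x y) :
    Adj2 φ K x y ∨ Adj2 φ (K' ∩ Al) x y :=
  let ⟨e, he, h⟩ := h
  (hK he).elim (fun h' => .inl ⟨e, h', h⟩) fun h' => .inr ⟨e, ⟨he, h'⟩, h⟩

/-- Old routes are kept from a start which is far from all old alive faces. -/
theorem reach_of_far {D : ℕ} (hK : K' ⊆ K ∪ Al) (hC : C' ⊆ C ∪ Al) {x : Φ}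
    (hfar : ∀ y j, Inc φ Al y → Reach φ K C x y j → D ≤ j) {y : Φ} {j : ℕ}
    (h : Reach φ K' C' x y j) : D ≤ j ∨ Reach φ K C x y j := by
  induction h with
  | refl => exact .inr .refl
  | @free y z j _ ha ih =>
    rcases ih with ih | ih
    · exact .inl ih
    rcases adj_split hK ha with ha | ⟨e, he, ha⟩
    · exact .inr (ih.free ha)
    · exact .inl (hfar y j (inc_of_adj ⟨e, he.2, ha⟩).1 ih)
  | @cost y z j _ ha ih =>
    rcases ih with ih | ih
    · exact .inl (by omega)
    rcases adj_split hC ha with ha | ⟨e, he, ha⟩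
    · exact .inr (ih.cost ha)
    · exact .inl (by have := hfar y j (inc_of_adj ⟨e, he.2, ha⟩).1 ih; omega)

/-- A potential bounds the new distance between old alive faces. -/
theorem reach_potential {D : ℕ} (hK : K' ⊆ K ∪ Al) (hC : C' ⊆ C ∪ Al)
    (hsep : ∀ x y j, Inc φ Al x → Inc φ Al y → Reach φ K C x y j → Same φ K x y ∨ D ≤ j)
    (ψ : Φ → ℕ) (hψ : ∀ x y, Same φ K x y → ψ x = ψ y)
    (hψK : ∀ x y, Adj2 φ (K' ∩ Al) x y → ψ y ≤ ψ x)
    (hψC : ∀ x y, Adj2 φ (C' ∩ Al) x y → ψ y ≤ ψ x + 1) {x : Φ} (hx : Inc φ Al x) {y : Φ}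
    (hy : Inc φ Al y) {j : ℕ} (h : Reach φ K' C' x y j) : D ≤ j ∨ ψ y ≤ ψ x + j := by
  have key : ∀ {y : Φ} {j : ℕ}, Reach φ K' C' x y j → D ≤ j ∨
      ∃ z i, Inc φ Al z ∧ Reach φ K C z y i ∧ ψ z + i ≤ ψ x + j ∧ i ≤ j := by
    intro y j h
    induction h with
    | refl => exact .inr ⟨x, 0, hx, .refl, le_rfl, le_rfl⟩
    | @free y w j _ ha ih =>
      rcases ih with ih | ⟨z, i, hz, hr, hle, hij⟩
      · exact .inl ih
      rcases adj_split hK ha with ha | ha
      · exact .inr ⟨z, i, hz, hr.free ha, hle, hij⟩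
      obtain ⟨e, he, ha'⟩ := ha
      have hi := inc_of_adj ⟨e, he.2, ha'⟩
      rcases hsep z y i hz hi.1 hr with hs | hs
      · exact .inr ⟨w, 0, hi.2, .refl,
          by have := hψK y w ⟨e, he, ha'⟩; have := hψ z y hs; omega, Nat.zero_le _⟩
      · exact .inl (by omega)
    | @cost y w j _ ha ih =>
      rcases ih with ih | ⟨z, i, hz, hr, hle, hij⟩
      · exact .inl (by omega)
      rcases adj_split hC ha with ha | ha
      · exact .inr ⟨z, i + 1, hz, hr.cost ha, by omega, by omega⟩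
      obtain ⟨e, he, ha'⟩ := ha
      have hi := inc_of_adj ⟨e, he.2, ha'⟩
      rcases hsep z y i hz hi.1 hr with hs | hs
      · exact .inr ⟨w, 0, hi.2, .refl,
          by have := hψC y w ⟨e, he, ha'⟩; have := hψ z y hs; omega, Nat.zero_le _⟩
      · exact .inl (by omega)
  rcases key h with h | ⟨z, i, hz, hr, hle, hij⟩
  · exact .inl h
  rcases hsep z y i hz hy hr with hs | hs
  · exact .inr (by have := hψ z y hs; omega)
  · exact .inl (by omega)

end Vale.Agent.P061.Apex
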