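import Vale.Agent.P061.Apex.Linear
import Vale.Agent.P061.Apex.Reach

/-!
P061 surfaces plus apices: the states of the contraction process.
-/

open Finset

namespace Vale.Agent.P061.Apex

variable {V E Φ : Type} [Fintype V] [Fintype E] [DecidableEq V] [DecidableEq E]
  {ends : E → V × V} {A : Finset V} {φ : E → Φ × Φ}

/-- The edge `e` joins a vertex in `P` to a vertex in `Q`. -/
def Link (ends : E → V × V) (e : E) (P Q : V → Prop) : Prop :=
  (P (ends e).1 ∧ Q (ends e).2) ∨ (P (ends e).2 ∧ Q (ends e).1)

/-- A state: clusters, joining times (zero before joining), labels, chosen edges and chain edges. -/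
structure St (V E : Type) where
  /-- the cluster of a vertex -/
  cl : V → V
  /-- the joining time of a vertex, a larger time being earlier -/
  tm : V → ℕ
  /-- the apex of a joined vertex -/
  lab : V → V
  /-- the chosen edges -/
  F : Finset E
  /-- the chain edges -/
  N : Finset E

namespace St

variable (s : St V E) (ends : E → V × V) (A : Finset V)

/-- Edges between two different clusters which have not joined. -/
noncomputable def alive : Finset E := by
  classical
  exact Finset.univ.filter fun e => e ∈ awayEdges ends ↑A ∧ s.tm (ends e).1 = 0 ∧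
    s.tm (ends e).2 = 0 ∧ s.cl (ends e).1 ≠ s.cl (ends e).2

/-- Edges of length zero. -/
def free : Set E := {e | e ∈ awayEdges ends ↑A ∧ e ∉ s.N ∧ e ∉ s.alive ends A}

/-- Edges of length one. -/
def costly : Set E := {e | e ∈ s.N ∧ e ∉ s.F}

/-- Vertices which have not joined. -/
def open_ : Finset V := Finset.univ.filter fun v => v ∉ A ∧ s.tm v = 0

/-- The number of clusters which have not joined. -/
def count : ℕ := ((s.open_ A).image s.cl).card

/-- Edges from the cluster of `v` to vertices which joined later or not at all. -/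
noncomputable def later (v : V) : Finset E := by
  classical
  exact Finset.univ.filter fun e => e ∈ awayEdges ends ↑A ∧
    Link ends e (fun u => s.cl u = s.cl v) (fun w => s.tm w < s.tm v)

/-- Edges from the cluster of `v` to its apex and to earlier clusters with the same apex. -/
noncomputable def toward (v : V) : Finset E := by
  classical
  exact Finset.univ.filter fun e => Link ends e (fun u => s.cl u = s.cl v)
    (fun w => w = s.lab v ∨ (w ∉ A ∧ s.tm v < s.tm w ∧ s.lab w = s.lab v))

end St

/-- The face of an edge end. -/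
def face (φ : E → Φ × Φ) (i : E × Bool) : Φ := bif i.2 then (φ i.1).1 else (φ i.1).2

/-- The invariant of the process. -/
structure Inv (ends : E → V × V) (A : Finset V) (φ : E → Φ × Φ) (D β θ : ℕ) (s : St V E) :
    Prop where
  sub : s.F ⊆ s.N
  away : ∀ e ∈ s.N, e ∈ awayEdges ends ↑A
  inside : ∀ e ∈ s.N, s.cl (ends e).1 = s.cl (ends e).2
  tm_eq : ∀ u v, s.cl u = s.cl v → s.tm u = s.tm v
  apex : ∀ a ∈ A, ∀ w, s.cl w = s.cl a → w = a
  indep : ∀ z ∈ suppOn (↑s.F : Set E), bd ends z = 0 → z = 0
  size : ∀ v, v ∉ A → (univ.filter fun w => s.cl w = s.cl v).card =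
    (s.F.filter fun e => s.cl (ends e).1 = s.cl v).card + 1
  linked : ∀ u v, s.cl u = s.cl v → Same ends (↑s.F : Set E) u v
  sep : ∀ x y j, Inc φ (↑(s.alive ends A) : Set E) x → Inc φ (↑(s.alive ends A) : Set E) y →
    Reach φ (s.free ends A) s.costly x y j → Same φ (s.free ends A) x y ∨ D ≤ j
  far : ∀ i : E × Bool, i.1 ∈ s.F → ∀ y j, Inc φ (↑(s.alive ends A) : Set E) y →
    Reach φ (s.free ends A) s.costly (face φ i) y j → D ≤ j
  apart : ∀ i i' : E × Bool, i.1 ∈ s.F → i'.1 ∈ s.F → i ≠ i' → ∀ j,
    Reach φ (s.free ends A) s.costly (face φ i) (face φ i') j → D ≤ j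
  tm_inj : ∀ u v, u ∉ A → v ∉ A → 0 < s.tm u → s.tm u = s.tm v → s.cl u = s.cl v
  lab_mem : ∀ v, v ∉ A → 0 < s.tm v → s.lab v ∈ A
  lab_eq : ∀ u v, u ∉ A → v ∉ A → 0 < s.tm v → s.cl u = s.cl v → s.lab u = s.lab v
  later_lt : ∀ v, v ∉ A → 0 < s.tm v → (s.later ends A v).card < β
  toward_le : ∀ v, v ∉ A → 0 < s.tm v → θ ≤ (s.toward ends A v).card

namespace St

variable (s : St V E)

theorem mem_alive {e : E} :
    e ∈ s.alive ends A ↔ e ∈ awayEdges ends ↑A ∧ s.tm (ends e).1 = 0 ∧ s.tm (ends e).2 = 0 ∧
      s.cl (ends e).1 ≠ s.cl (ends e).2 := by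
  simp [alive]

theorem mem_open {v : V} : v ∈ s.open_ A ↔ v ∉ A ∧ s.tm v = 0 := by simp [open_]

theorem mem_later {v : V} {e : E} :
    e ∈ s.later ends A v ↔ e ∈ awayEdges ends ↑A ∧
      Link ends e (fun u => s.cl u = s.cl v) (fun w => s.tm w < s.tm v) := by
  simp [later]

theorem mem_toward {v : V} {e : E} :
    e ∈ s.toward ends A v ↔ Link ends e (fun u => s.cl u = s.cl v)
      (fun w => w = s.lab v ∨ (w ∉ A ∧ s.tm v < s.tm w ∧ s.lab w = s.lab v)) := by
  simp [toward]

end St

/-- The initial state. -/
def initial : St V E := ⟨id, fun _ => 0, id, ∅, ∅⟩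

theorem inv_initial (D β θ : ℕ) : Inv ends A φ D β θ (initial : St V E) where
  sub := by simp [initial]
  away := by simp [initial]
  inside := by simp [initial]
  tm_eq := by simp [initial]
  apex := fun a _ w h => h
  indep := fun z hz _ => funext fun e => hz e (by simp [initial])
  size := fun v _ => by
    rw [show (Finset.univ.filter fun w => (initial : St V E).cl w = (initial : St V E).cl v)
      = {v} by
        ext w
        rw [Finset.mem_filter, Finset.mem_singleton]
        simp [initial],
      show (initial : St V E).F = ∅ from rfl, Finset.filter_empty, Finset.card_empty,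
      Finset.card_singleton]
  linked := fun u v h => by obtain rfl : u = v := h; exact Same.refl _
  sep := by
    intro x y j _ hy h
    clear hy
    refine .inl ?_
    induction h with
    | refl => exact Same.refl _
    | free _ ha ih => exact ih.trans (same_of_adj ha)
    | cost _ ha _ => exact absurd ha fun ⟨e, he, _⟩ => by simp [St.costly, initial] at he
  far := fun i hi => by simp [initial] at hi
  apart := fun i _ hi => by simp [initial] at hi
  tm_inj := fun u v _ _ h => by simp [initial] at h
  lab_mem := fun v _ h => by simp [initial] at h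
  lab_eq := fun u v _ _ h => by simp [initial] at h
  later_lt := fun v _ h => by simp [initial] at h
  toward_le := fun v _ h => by simp [initial] at h

end Vale.Agent.P061.Apex
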